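import Mathlib

/-!
P075, second question: the dyadic triangular Hilbert form.
-/

namespace P075

open MeasureTheory Set

/-- The dyadic interval of scale `k` and index `n`. -/
def dyadicIco (k : ℤ) (n : ℕ) : Set ℝ := Ico ((2:ℝ) ^ k * n) ((2:ℝ) ^ k * (n + 1))

/-- The Haar function of that interval: indicator of the left half minus that of the right half. -/
noncomputable def haar (k : ℤ) (n : ℕ) (x : ℝ) : ℝ :=
  (Ico ((2:ℝ) ^ k * n) ((2:ℝ) ^ k * (n + 1 / 2))).indicator (fun _ => (1:ℝ)) x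
    - (Ico ((2:ℝ) ^ k * (n + 1 / 2)) ((2:ℝ) ^ k * (n + 1))).indicator (fun _ => (1:ℝ)) x

/-- The summand of one triple of intervals. -/
noncomputable def triple (k : ℤ) (n0 n1 n2 : ℕ) (F0 F1 F2 : ℝ × ℝ → ℝ) : ℝ :=
  ((2:ℝ) ^ k)⁻¹ * ∫ x in dyadicIco k n0 ×ˢ (dyadicIco k n1 ×ˢ dyadicIco k n2),
    F0 (x.1, x.2.1) * F1 (x.2.1, x.2.2) * F2 (x.2.2, x.1)
      * (haar k n0 x.1 * haar k n1 x.2.1 * haar k n2 x.2.2)

/-- The dyadic triangular Hilbert form over the finite set of scales `S`; the indices of a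
triple have bitwise sum zero. -/
noncomputable def dyForm (S : Finset ℤ) (eps : ℤ → ℝ) (F0 F1 F2 : ℝ × ℝ → ℝ) : ℝ :=
  ∑ k ∈ S, eps k * ∑' p : ℕ × ℕ, triple k p.1 p.2 (p.1 ^^^ p.2) F0 F1 F2

/-- The L3 norm on the closed quadrant. -/
noncomputable def norm3 (F : ℝ × ℝ → ℝ) : ℝ :=
  (∫ x in Ici (0:ℝ) ×ˢ Ici (0:ℝ), |F x| ^ 3) ^ (1 / 3 : ℝ)

end P075
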