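import Mathlib

/-!
P075: the finite model of the dyadic triangular form, on a grid of `2 ^ m` cells per side.
-/

namespace P075

/-- The sign of one bit. -/
def bsgn (s i : ℕ) : ℝ := if s.testBit i then -1 else 1

/-- One scale of the finite model: `j` leading bits of `a ^^^ b ^^^ c` vanish and the next bit
gives the sign. -/
noncomputable def dscale (m j : ℕ) (f g h : ℕ → ℕ → ℝ) : ℝ :=
  (2:ℝ) ^ j / ((2:ℝ) ^ m) ^ 3 *
    ∑ a ∈ Finset.range (2 ^ m), ∑ b ∈ Finset.range (2 ^ m), ∑ c ∈ Finset.range (2 ^ m),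
      if (a ^^^ b ^^^ c) >>> (m - j) = 0
        then bsgn (a ^^^ b ^^^ c) (m - 1 - j) * f a b * g b c * h c a else 0

/-- The finite model with weights `eps j`. -/
noncomputable def dform (m : ℕ) (eps : ℕ → ℝ) (f g h : ℕ → ℕ → ℝ) : ℝ :=
  ∑ j ∈ Finset.range m, eps j * dscale m j f g h

/-- The sum of the three averaged cubes. -/
noncomputable def dnorm (m : ℕ) (f g h : ℕ → ℕ → ℝ) : ℝ :=
  (∑ a ∈ Finset.range (2 ^ m), ∑ b ∈ Finset.range (2 ^ m),
      (|f a b| ^ 3 + |g a b| ^ 3 + |h a b| ^ 3)) / ((2:ℝ) ^ m) ^ 2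

end P075
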