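import Vale.Agent.P075.Resolvent

/-!
P075: the potential `phi G ~ tr G ^ (3 / 2)` and the superadditivity gain.
-/

set_option linter.unusedSectionVars false

namespace P075

open Matrix

variable {ι κ : Type*} [Fintype ι] [DecidableEq ι] [Fintype κ] [DecidableEq κ]

/-- The scale `2 ^ l`. -/
noncomputable def scl (l : ℤ) : ℝ := (2:ℝ) ^ l

/-- The weight `(√2) ^ l`. -/
noncomputable def wt (l : ℤ) : ℝ := (Real.sqrt 2) ^ l

theorem scl_pos (l : ℤ) : 0 < scl l := zpow_pos (by norm_num) l

theorem wt_pos (l : ℤ) : 0 < wt l := zpow_pos (by positivity) l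

theorem wt_sq (l : ℤ) : wt l ^ 2 = scl l := by
  rw [wt, scl, ← zpow_natCast, ← _root_.zpow_mul, mul_comm, _root_.zpow_mul, zpow_natCast,
    Real.sq_sqrt (by norm_num : (0:ℝ) ≤ 2)]

theorem scl_succ (l : ℤ) : scl (l + 1) = 2 * scl l := by
  rw [scl, scl, zpow_add_one₀ (by norm_num)]; ring

theorem wt_succ (l : ℤ) : wt (l + 1) = Real.sqrt 2 * wt l := by
  rw [wt, wt, zpow_add_one₀ (by positivity)]; ring

theorem sqrt_two_bounds : 4 / 3 ≤ Real.sqrt 2 ∧ Real.sqrt 2 ≤ 3 / 2 := by
  constructor
  · rw [Real.le_sqrt (by norm_num) (by norm_num)]; norm_num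
  · rw [Real.sqrt_le_left (by norm_num)]; norm_num

/-- A geometric sum. -/
theorem sum_wt_le (a : ℤ) (n : ℕ) :
    ∑ i ∈ Finset.range n, wt (a + i) ≤ 3 * (wt (a + n) - wt a) := by
  induction n with
  | zero => simp
  | succ n ih =>
    rw [Finset.sum_range_succ]
    have e : wt (a + (n + 1 : ℕ)) = Real.sqrt 2 * wt (a + n) := by
      rw [show (a + ((n + 1 : ℕ) : ℤ)) = a + n + 1 by push_cast; ring, wt_succ]
    rw [e]
    nlinarith [wt_pos (a + n), sqrt_two_bounds.1]

/-- The summand of the potential. -/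
noncomputable def phiTerm (G : Matrix ι ι ℝ) (l : ℤ) : ℝ := wt l * (fsq (scl l) G).trace

/-- The potential, comparable to the trace of `G ^ (3 / 2)`. -/
noncomputable def phi (G : Matrix ι ι ℝ) : ℝ := ∑' l : ℤ, phiTerm G l

theorem phiTerm_nonneg {G : Matrix ι ι ℝ} (hG : G.PosSemidef) (l : ℤ) : 0 ≤ phiTerm G l :=
  mul_nonneg (wt_pos l).le (trace_fsq_nonneg hG (scl_pos l))

theorem summable_phiTerm {G : Matrix ι ι ℝ} (hG : G.PosSemidef) :
    Summable (phiTerm G) := by
  have hgeo : Summable (fun n : ℕ => ((Real.sqrt 2)⁻¹) ^ n) :=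
    summable_geometric_of_lt_one (by positivity)
      (inv_lt_one_of_one_lt₀ (by linarith [sqrt_two_bounds.1]))
  refine Summable.of_nat_of_neg_add_one ?_ ?_
  · refine Summable.of_nonneg_of_le (fun n => phiTerm_nonneg hG _) (fun n => ?_)
      (hgeo.mul_left (G * G).trace)
    have h := trace_fsq_le_sq hG (scl_pos n)
    have hw : wt (n : ℤ) = Real.sqrt 2 ^ n := zpow_natCast _ n
    have h2 : (fsq (scl n) G).trace * wt n * wt n ≤ (G * G).trace := by
      calc (fsq (scl n) G).trace * wt n * wt n = wt n ^ 2 * (fsq (scl n) G).trace := by ring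
        _ ≤ _ := by rw [wt_sq]; exact h
    rw [inv_pow, ← hw, ← div_eq_mul_inv, le_div_iff₀ (wt_pos _)]
    unfold phiTerm
    nlinarith
  · refine Summable.of_nonneg_of_le (fun n => phiTerm_nonneg hG _) (fun n => ?_)
      (hgeo.mul_left G.trace)
    unfold phiTerm
    have hw : wt (-((n : ℤ) + 1)) ≤ ((Real.sqrt 2)⁻¹) ^ n := by
      rw [wt, _root_.zpow_neg, show ((n : ℤ) + 1) = ((n + 1 : ℕ) : ℤ) by push_cast; ring, zpow_natCast,
        ← inv_pow, pow_succ]
      refine mul_le_of_le_one_right (by positivity) ?_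
      exact inv_le_one_of_one_le₀ (by linarith [sqrt_two_bounds.1])
    calc wt (-((n : ℤ) + 1)) * (fsq (scl (-((n : ℤ) + 1))) G).trace
        ≤ ((Real.sqrt 2)⁻¹) ^ n * G.trace :=
          mul_le_mul hw (trace_fsq_le hG (scl_pos _)) (trace_fsq_nonneg hG (scl_pos _))
            (by positivity)
      _ = _ := mul_comm _ _

theorem phi_nonneg {G : Matrix ι ι ℝ} (hG : G.PosSemidef) : 0 ≤ phi G :=
  tsum_nonneg (phiTerm_nonneg hG)

theorem fsq_smul {c s : ℝ} {G : Matrix ι ι ℝ} (hG : G.PosSemidef) (hs : 0 < s) (hc : c ≠ 0) :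
    fsq (c * s) (c • G) = c • fsq s G := by
  have h : res (c * s) (c • G) = c⁻¹ • res s G := by
    unfold res
    rw [mul_smul, ← smul_add]
    refine Matrix.inv_eq_left_inv ?_
    rw [smul_mul_smul_comm, inv_mul_cancel₀ hc, one_smul, Matrix.nonsing_inv_mul _
      ((Matrix.isUnit_iff_isUnit_det _).mp (shift_posDef hG hs).isUnit)]
  unfold fsq prj
  rw [h, smul_mul_smul_comm, mul_inv_cancel₀ hc, one_smul, mul_smul, ← smul_sub]

theorem phi_two_smul {G : Matrix ι ι ℝ} (hG : G.PosSemidef) :
    phi ((2:ℝ) • G) = 2 * Real.sqrt 2 * phi G := by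
  unfold phi
  rw [← tsum_mul_left, ← (Equiv.addRight (1:ℤ)).tsum_eq]
  refine tsum_congr fun l => ?_
  simp only [phiTerm, Equiv.coe_addRight, scl_succ, wt_succ]
  rw [fsq_smul hG (scl_pos l) (by norm_num), trace_smul, smul_eq_mul]
  ring

theorem phi_convex {G H : Matrix ι ι ℝ} (hG : G.PosSemidef) (hH : H.PosSemidef) :
    Real.sqrt 2 * phi (G + H) ≤ 2 * (phi G + phi H) := by
  have hM : ((2:ℝ)⁻¹ • (G + H)).PosSemidef := (hG.add hH).smul (by norm_num)
  have h : 2 * phi ((2:ℝ)⁻¹ • (G + H)) ≤ phi G + phi H := by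
    unfold phi
    rw [← tsum_mul_left, ← (summable_phiTerm hG).tsum_add (summable_phiTerm hH)]
    refine Summable.tsum_le_tsum (fun l => ?_) ((summable_phiTerm hM).mul_left 2)
      ((summable_phiTerm hG).add (summable_phiTerm hH))
    unfold phiTerm
    nlinarith [trace_fsq_convex hG hH (scl_pos l), wt_pos l]
  have e := phi_two_smul hM
  rw [smul_smul, mul_inv_cancel₀ (by norm_num : (2:ℝ) ≠ 0), one_smul] at e
  rw [e]
  have : Real.sqrt 2 * (2 * Real.sqrt 2 * phi ((2:ℝ)⁻¹ • (G + H)))
      = 4 * phi ((2:ℝ)⁻¹ • (G + H)) := by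
    have := Real.mul_self_sqrt (show (0:ℝ) ≤ 2 by norm_num)
    linear_combination (2 * phi ((2:ℝ)⁻¹ • (G + H))) * this
  linarith

/-- The resolvent identity behind the gain. -/
theorem res_sub_res_add {P Q : Matrix ι ι ℝ} (hP : P.PosSemidef) (hQ : Q.PosSemidef)
    {s : ℝ} (hs : 0 < s) :
    res s P - res s (P + Q) = res s P * (Q - Q * res s (P + Q) * Q) * res s P := by
  have hA := (Matrix.isUnit_iff_isUnit_det _).mp (shift_posDef hP hs).isUnit
  have hB := (Matrix.isUnit_iff_isUnit_det _).mp (shift_posDef (hP.add hQ) hs).isUnit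
  have a1 : res s P * (P + s • 1) = 1 := Matrix.nonsing_inv_mul _ hA
  have a2 : (P + s • 1) * res s P = 1 := Matrix.mul_nonsing_inv _ hA
  have b1 : res s (P + Q) * (P + Q + s • 1) = 1 := Matrix.nonsing_inv_mul _ hB
  have b2 : (P + Q + s • 1) * res s (P + Q) = 1 := Matrix.mul_nonsing_inv _ hB
  have e1 : res s P - res s (P + Q) = res s P * Q * res s (P + Q) := by
    calc res s P - res s (P + Q) = res s P * ((P + Q + s • 1) * res s (P + Q))
          - (res s P * (P + s • 1)) * res s (P + Q) := by rw [a1, b2, mul_one, one_mul]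
      _ = _ := by noncomm_ring
  have e2 : res s P - res s (P + Q) = res s (P + Q) * Q * res s P := by
    calc res s P - res s (P + Q) = (res s (P + Q) * (P + Q + s • 1)) * res s P
          - res s (P + Q) * ((P + s • 1) * res s P) := by rw [a2, b1, mul_one, one_mul]
      _ = _ := by noncomm_ring
  calc res s P - res s (P + Q) = res s P * Q * res s (P + Q) := e1
    _ = res s P * Q * (res s P - (res s P - res s (P + Q))) := by rw [sub_sub_cancel]
    _ = res s P * Q * (res s P - res s (P + Q) * Q * res s P) := by rw [e2]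
    _ = _ := by noncomm_ring

/-- The quantity controlled by the gain at one scale. -/
noncomputable def cross (s : ℝ) (P Q : Matrix ι ι ℝ) : ℝ :=
  (res s P * P * res s P * prj s Q).trace

theorem trace_gain {P Q : Matrix ι ι ℝ} (hP : P.PosSemidef) (hQ : Q.PosSemidef)
    {s : ℝ} (hs : 0 < s) :
    s * cross s P Q ≤ (prj s P).trace + (prj s Q).trace - (prj s (P + Q)).trace := by
  have h2 : 0 ≤ (Q * (res s Q - res s (P + Q))).trace :=
    trace_mul_nonneg hQ (res_antitone hQ (hP.add hQ) hs (by simpa using hP))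
  have h1 : s * cross s P Q ≤ (P * (res s P - res s (P + Q))).trace := by
    rw [res_sub_res_add hP hQ hs, ← mul_assoc, Matrix.trace_mul_comm, ← mul_assoc, ← mul_assoc,
      show res s P * P * res s P * (Q - Q * res s (P + Q) * Q)
        = (res s P * P * res s P) * (Q - Q * res s (P + Q) * Q) from rfl]
    have hpsd : (res s P * P * res s P).PosSemidef := by
      have := psd_congr hP (res s P)
      rwa [res_symm hP hs] at this
    have hle : (Q - Q * res s (P + Q) * Q - s • prj s Q).PosSemidef := by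
      have := psd_congr (res_antitone hQ (hP.add hQ) hs (by simpa using hP)) Q
      rw [psd_symm hQ, mul_sub, sub_mul, ← fsq_eq hQ hs, fsq] at this
      convert this using 1
      abel
    have := trace_mul_mono_right hpsd hle
    rw [mul_smul_comm, trace_smul, smul_eq_mul] at this
    exact this
  have e : (prj s P).trace + (prj s Q).trace - (prj s (P + Q)).trace
      = (P * (res s P - res s (P + Q))).trace + (Q * (res s Q - res s (P + Q))).trace := by
    simp only [prj, mul_sub, add_mul, trace_sub, trace_add]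
    ring
  linarith

theorem wt_cross_le {P Q : Matrix ι ι ℝ} (hP : P.PosSemidef) (hQ : Q.PosSemidef) (l : ℤ) :
    wt l ^ 5 * cross (scl l) P Q
      ≤ phiTerm (P + Q) l - phiTerm P l - phiTerm Q l := by
  have h := trace_gain hP hQ (scl_pos l)
  have e : phiTerm (P + Q) l - phiTerm P l - phiTerm Q l = wt l * scl l *
      ((prj (scl l) P).trace + (prj (scl l) Q).trace - (prj (scl l) (P + Q)).trace) := by
    simp only [phiTerm, fsq, trace_sub, trace_smul, trace_add, smul_eq_mul]
    ring
  rw [e]
  calc wt l ^ 5 * cross (scl l) P Q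
      = wt l * scl l * (scl l * cross (scl l) P Q) := by rw [← wt_sq]; ring
    _ ≤ _ := mul_le_mul_of_nonneg_left h (mul_pos (wt_pos l) (scl_pos l)).le

theorem cross_nonneg {P Q : Matrix ι ι ℝ} (hP : P.PosSemidef) (hQ : Q.PosSemidef)
    {s : ℝ} (hs : 0 < s) : 0 ≤ cross s P Q := by
  have := psd_congr hP (res s P)
  rw [res_symm hP hs] at this
  exact trace_mul_nonneg this (prj_psd hQ hs)

/-- One step of the telescope of `prj`. -/
theorem prj_step {P : Matrix ι ι ℝ} (hP : P.PosSemidef) {s : ℝ} (hs : 0 < s) :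
    ((2 * s) • (res (2 * s) P * P * res (2 * s) P) - (prj s P - prj (2 * s) P)).PosSemidef := by
  have ht : 0 < 2 * s := by linarith
  have a : res s P * (P + s • 1) = 1 := Matrix.nonsing_inv_mul _
    ((Matrix.isUnit_iff_isUnit_det _).mp (shift_posDef hP hs).isUnit)
  have b : res (2 * s) P * (P + (2 * s) • 1) = 1 := Matrix.nonsing_inv_mul _
    ((Matrix.isUnit_iff_isUnit_det _).mp (shift_posDef hP ht).isUnit)
  set R := res s P with hR
  set T := res (2 * s) P with hT
  have cRT : R * T = T * R := res_comm hP hs ht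
  have cP : R * P = P * R := res_comm_self hP hs
  have cTP : T * P = P * T := res_comm_self hP ht
  have hmid : (P * P * P + s • (P * P)).PosSemidef := by
    have h2 : (P * P).PosSemidef := by
      have := psd_gram P
      rwa [psd_symm hP] at this
    have h3 : (P * P * P).PosSemidef := by
      have := psd_congr hP P
      rwa [psd_symm hP] at this
    exact h3.add (h2.smul hs.le)
  have key := (psd_congr hmid (R * T)).smul hs.le
  have hTr : (R * T)ᵀ = R * T := by
    rw [transpose_mul, res_symm hP hs, res_symm hP ht, ← cRT]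
  rw [hTr] at key
  have e : (2 * s) • (T * P * T) - (prj s P - prj (2 * s) P)
      = s • (R * T * (P * P * P + s • (P * P)) * (R * T)) := by
    rw [prj_sub_prj hP hs ht, ← hR, ← hT, show 2 * s - s = s by ring, two_mul, add_smul]
    have e1 : R * T * (P * P * P + s • (P * P)) * (R * T) = T * P * P * R * T := by
      have : P * P * P + s • (P * P) = (P + s • 1) * (P * P) := by
        simp only [add_mul, smul_mul_assoc, one_mul, mul_assoc]
      rw [this, cRT]
      calc T * R * ((P + s • 1) * (P * P)) * (T * R) = T * (R * (P + s • 1)) * (P * P) * (T * R) := by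
            simp only [mul_assoc]
        _ = T * (P * P) * (T * R) := by rw [a, mul_one]
        _ = _ := by rw [← cRT]; simp only [mul_assoc]
    have e2 : T * P * T + T * P * T - R * P * T = T * P * P * R * T := by
      have a' : (P + s • 1) * R = 1 := Matrix.mul_nonsing_inv _
        ((Matrix.isUnit_iff_isUnit_det _).mp (shift_posDef hP hs).isUnit)
      have h : T + T - R = T * P * R := by
        calc T + T - R = T * ((P + s • 1) * R) + T * ((P + s • 1) * R)
              - (T * (P + (2 * s) • 1)) * R := by rw [a', b, mul_one, one_mul]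
          _ = T * P * R := by
              simp only [add_mul, mul_add, smul_mul_assoc, mul_smul_comm, one_mul, mul_one,
                mul_assoc, two_mul, add_smul]
              abel
      calc T * P * T + T * P * T - R * P * T = (T + T - R) * (P * T) := by noncomm_ring
        _ = T * P * R * (P * T) := by rw [h]
        _ = _ := by
          calc T * P * R * (P * T) = T * P * (R * P) * T := by simp only [mul_assoc]
            _ = _ := by rw [cP]; simp only [mul_assoc]
    rw [e1, ← smul_add, ← smul_sub, e2]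
  rw [e]
  exact key

theorem trace_prj_telescope {P Y : Matrix ι ι ℝ} (hP : P.PosSemidef) (hY : Y.PosSemidef)
    (k : ℤ) (n : ℕ) :
    (prj (scl k) P * Y).trace
      ≤ ∑ i ∈ Finset.range n, scl (k + i + 1)
          * (res (scl (k + i + 1)) P * P * res (scl (k + i + 1)) P * Y).trace
        + (prj (scl (k + n)) P * Y).trace := by
  induction n with
  | zero => simp
  | succ n ih =>
    rw [Finset.sum_range_succ]
    have h := trace_mul_nonneg (prj_step hP (scl_pos (k + n))) hY
    rw [sub_mul, sub_mul, smul_mul_assoc, trace_sub, trace_sub, trace_smul, smul_eq_mul,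
      ← scl_succ] at h
    rw [show (k + ((n + 1 : ℕ) : ℤ)) = k + n + 1 by push_cast; ring]
    linarith

/-- The cross term `tr (prj P * prj Q)` at one scale. -/
noncomputable def jay (s : ℝ) (P Q : Matrix ι ι ℝ) : ℝ := (prj s P * prj s Q).trace

theorem jay_le {P Q : Matrix ι ι ℝ} (hP : P.PosSemidef) (hQ : Q.PosSemidef) (k : ℤ) (n : ℕ) :
    wt k ^ 3 * jay (scl k) P Q
      ≤ ∑ i ∈ Finset.range n, wt k / wt (k + i + 1)
            * (phiTerm (P + Q) (k + i + 1) - phiTerm P (k + i + 1) - phiTerm Q (k + i + 1))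
        + wt k ^ 3 * (P.trace / scl (k + n)) := by
  have hY := prj_psd hQ (scl_pos k)
  have h := trace_prj_telescope hP hY k n
  have hrest : (prj (scl (k + n)) P * prj (scl k) Q).trace ≤ P.trace / scl (k + n) := by
    have h1 := trace_mul_mono_right (prj_psd hP (scl_pos (k + n)))
      (one_sub_prj_psd hQ (scl_pos k))
    rw [mul_one] at h1
    refine h1.trans ?_
    rw [le_div_iff₀ (scl_pos _), mul_comm]
    exact trace_prj_le hP (scl_pos _)
  have hterm : ∀ i ∈ Finset.range n, wt k ^ 3 * (scl (k + i + 1)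
        * (res (scl (k + i + 1)) P * P * res (scl (k + i + 1)) P * prj (scl k) Q).trace)
      ≤ wt k / wt (k + i + 1)
            * (phiTerm (P + Q) (k + i + 1) - phiTerm P (k + i + 1) - phiTerm Q (k + i + 1)) := by
    intro i _
    set l := k + i + 1 with hl
    have hle : scl k ≤ scl l := zpow_le_zpow_right₀ (by norm_num) (by omega)
    have hpsd : (res (scl l) P * P * res (scl l) P).PosSemidef := by
      have := psd_congr hP (res (scl l) P)
      rwa [res_symm hP (scl_pos l)] at this
    have h1 := trace_mul_mono_right hpsd (prj_le_mul_prj hQ (scl_pos k) hle)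
    rw [mul_smul_comm, mul_smul_comm, trace_smul, trace_smul, smul_eq_mul, smul_eq_mul] at h1
    have h2 := wt_cross_le hP hQ l
    have hk := wt_pos k
    have hw := wt_pos l
    refine le_trans ?_ (mul_le_mul_of_nonneg_left h2 (div_pos hk hw).le)
    unfold cross
    rw [← wt_sq k, ← wt_sq l] at h1
    rw [← wt_sq l]
    calc wt k ^ 3 * (wt l ^ 2 * (res (wt l ^ 2) P * P * res (wt l ^ 2) P
            * prj (scl k) Q).trace)
        = wt k * wt l ^ 2 * (wt k ^ 2 * (res (wt l ^ 2) P * P * res (wt l ^ 2) P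
            * prj (wt k ^ 2) Q).trace) := by rw [← wt_sq k]; ring
      _ ≤ wt k * wt l ^ 2 * (wt l ^ 2 * (res (wt l ^ 2) P * P * res (wt l ^ 2) P
            * prj (wt l ^ 2) Q).trace) := mul_le_mul_of_nonneg_left h1 (by positivity)
      _ = _ := by field_simp
  have := mul_le_mul_of_nonneg_left h (pow_pos (wt_pos k) 3).le
  rw [mul_add, Finset.mul_sum] at this
  refine this.trans (add_le_add (Finset.sum_le_sum hterm) ?_)
  exact mul_le_mul_of_nonneg_left hrest (pow_pos (wt_pos k) 3).le

/-- The summed cross terms are bounded by the gain. -/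
theorem sum_jay_le {P Q : Matrix ι ι ℝ} (hP : P.PosSemidef) (hQ : Q.PosSemidef) (a : ℤ) (N : ℕ) :
    ∑ i ∈ Finset.range N, wt (a + i) ^ 3 * jay (scl (a + i)) P Q
      ≤ 3 * (phi (P + Q) - phi P - phi Q) := by
  set g : ℤ → ℝ := fun l => phiTerm (P + Q) l - phiTerm P l - phiTerm Q l with hg
  have hs : Summable g :=
    ((summable_phiTerm (hP.add hQ)).sub (summable_phiTerm hP)).sub (summable_phiTerm hQ)
  have hg0 : ∀ l, 0 ≤ g l := fun l => le_trans
    (mul_nonneg (pow_nonneg (wt_pos l).le 5) (cross_nonneg hP hQ (scl_pos l))) (wt_cross_le hP hQ l)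
  have htot : ∑' l, g l = phi (P + Q) - phi P - phi Q := by
    rw [hg, Summable.tsum_sub ((summable_phiTerm (hP.add hQ)).sub (summable_phiTerm hP))
      (summable_phiTerm hQ), Summable.tsum_sub (summable_phiTerm (hP.add hQ)) (summable_phiTerm hP)]
    rfl
  have hc : 0 ≤ ∑ i ∈ Finset.range N, wt (a + i) ^ 3 :=
    Finset.sum_nonneg fun i _ => pow_nonneg (wt_pos _).le 3
  have key : ∀ M : ℕ, ∑ i ∈ Finset.range N, wt (a + i) ^ 3 * jay (scl (a + i)) P Q
      ≤ 3 * (phi (P + Q) - phi P - phi Q)
        + (∑ i ∈ Finset.range N, wt (a + i) ^ 3) * (P.trace / scl (a + (N + M : ℕ))) := by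
    intro M
    set L : ℤ := a + (N + M : ℕ) with hL
    have h1 : ∀ i ∈ Finset.range N, wt (a + i) ^ 3 * jay (scl (a + i)) P Q
        ≤ ∑ l ∈ Finset.Icc (a + i + 1) L, wt (a + i) / wt l * g l
          + wt (a + i) ^ 3 * (P.trace / scl L) := by
      intro i hi
      rw [Finset.mem_range] at hi
      have := jay_le hP hQ (a + i) (N + M - i)
      rw [show a + (i : ℤ) + ((N + M - i : ℕ) : ℤ) = L by omega] at this
      refine this.trans (le_of_eq ?_)
      congr 1
      refine Finset.sum_bij' (fun j _ => a + i + j + 1) (fun l _ => (l - (a + i + 1)).toNat)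
        ?_ ?_ ?_ ?_ ?_
      · intro j hj; rw [Finset.mem_range] at hj; rw [Finset.mem_Icc]; omega
      · intro l hl; rw [Finset.mem_Icc] at hl; rw [Finset.mem_range]; omega
      · intro j hj; omega
      · intro l hl; rw [Finset.mem_Icc] at hl; omega
      · intro j hj; rfl
    refine (Finset.sum_le_sum h1).trans ?_
    rw [Finset.sum_add_distrib, ← Finset.sum_mul, ← htot]
    refine add_le_add ?_ le_rfl
    calc ∑ i ∈ Finset.range N, ∑ l ∈ Finset.Icc (a + i + 1) L, wt (a + i) / wt l * g l
        = ∑ l ∈ Finset.Icc (a + 1) L,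
            (∑ i ∈ (Finset.range N).filter (fun i : ℕ => a + i + 1 ≤ l), wt (a + i)) / wt l * g l := by
          simp_rw [Finset.sum_div, Finset.sum_mul]
          refine Finset.sum_comm' ?_
          intro i l
          simp only [Finset.mem_range, Finset.mem_Icc, Finset.mem_filter]
          omega
      _ ≤ ∑ l ∈ Finset.Icc (a + 1) L, 3 * g l := by
          refine Finset.sum_le_sum fun l hl => mul_le_mul_of_nonneg_right ?_ (hg0 l)
          rw [Finset.mem_Icc] at hl
          rw [div_le_iff₀ (wt_pos l)]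
          calc ∑ i ∈ (Finset.range N).filter (fun i : ℕ => a + i + 1 ≤ l), wt (a + i)
              ≤ ∑ i ∈ Finset.range (l - a).toNat, wt (a + i) := by
                refine Finset.sum_le_sum_of_subset_of_nonneg ?_ fun i _ _ => (wt_pos _).le
                intro i hi
                rw [Finset.mem_filter, Finset.mem_range] at hi
                rw [Finset.mem_range]; omega
            _ ≤ 3 * (wt (a + ((l - a).toNat : ℤ)) - wt a) := sum_wt_le a _
            _ ≤ 3 * wt l := by
                rw [show a + ((l - a).toNat : ℤ) = l by omega]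
                linarith [wt_pos a]
      _ ≤ 3 * ∑' l, g l := by
          rw [← Finset.mul_sum]
          exact mul_le_mul_of_nonneg_left (hs.sum_le_tsum _ fun l _ => hg0 l) (by norm_num)
  refine le_of_forall_pos_le_add fun ε hε => ?_
  obtain ⟨M, hM⟩ := pow_unbounded_of_one_lt
    (((∑ i ∈ Finset.range N, wt (a + i) ^ 3) * P.trace) / (ε * scl (a + N))) (one_lt_two : (1:ℝ) < 2)
  refine (key M).trans (add_le_add le_rfl ?_)
  have e : scl (a + (N + M : ℕ)) = scl (a + N) * (2:ℝ) ^ M := by
    rw [scl, scl, show a + ((N + M : ℕ) : ℤ) = a + N + M by push_cast; ring,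
      zpow_add₀ (by norm_num), zpow_natCast]
  rw [e, mul_div_assoc', div_le_iff₀ (mul_pos (scl_pos _) (by positivity))]
  rw [div_lt_iff₀ (mul_pos hε (scl_pos _))] at hM
  linarith

end P075
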