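import Mathlib
import Vale.Agent.P075.Defs
import Vale.Agent.P075.DiscreteDefs

/-!
P075: passage from the finite model to bounded measurable compactly supported functions.
-/

namespace P075

open MeasureTheory Set Filter Topology

/-- The interval `[0, 2 ^ M)`. -/
def box (M : ℕ) : Set ℝ := Ico 0 (2 ^ M)

/-- The square `[0, 2 ^ M) × [0, 2 ^ M)`. -/
def box2 (M : ℕ) : Set (ℝ × ℝ) := box M ×ˢ box M

/-- The cube `[0, 2 ^ M) × [0, 2 ^ M) × [0, 2 ^ M)`. -/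
def box3 (M : ℕ) : Set (ℝ × ℝ × ℝ) := box M ×ˢ (box M ×ˢ box M)

/-- The number of index levels of scale `k` inside the box. -/
def lev (M : ℕ) (k : ℤ) : ℕ := ((M : ℤ) - k).toNat

/-- The form with the triples inside the box only. -/
noncomputable def boxForm (S : Finset ℤ) (eps : ℤ → ℝ) (M : ℕ) (F0 F1 F2 : ℝ × ℝ → ℝ) : ℝ :=
  ∑ k ∈ S, eps k * ∑ p ∈ Finset.range (2 ^ lev M k) ×ˢ Finset.range (2 ^ lev M k),
    triple k p.1 p.2 (p.1 ^^^ p.2) F0 F1 F2

/-- The integral of the cube over the square. -/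
noncomputable def cubeInt (M : ℕ) (F : ℝ × ℝ → ℝ) : ℝ := ∫ x in box2 M, |F x| ^ 3

/-- The index of the grid cell of mesh `2 ^ (-L)`. -/
noncomputable def cidx (L : ℕ) (x : ℝ) : ℕ := ⌊x * 2 ^ L⌋₊

/-- A step function on the grid. -/
noncomputable def stepFun (L : ℕ) (f : ℕ → ℕ → ℝ) (x : ℝ × ℝ) : ℝ := f (cidx L x.1) (cidx L x.2)

/-- A grid cell. -/
def gcell (L a : ℕ) : Set ℝ := Ico ((a : ℝ) / 2 ^ L) (((a : ℝ) + 1) / 2 ^ L)

theorem measurable_cidx (L : ℕ) : Measurable (cidx L) :=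
  Nat.measurable_floor.comp (measurable_id.mul_const _)

theorem measurable_stepFun (L : ℕ) (f : ℕ → ℕ → ℝ) : Measurable (stepFun L f) :=
  (measurable_of_countable (fun p : ℕ × ℕ => f p.1 p.2)).comp
    (((measurable_cidx L).comp measurable_fst).prodMk ((measurable_cidx L).comp measurable_snd))

theorem measurable_haar (k : ℤ) (n : ℕ) : Measurable (haar k n) :=
  (measurable_const.indicator measurableSet_Ico).sub (measurable_const.indicator measurableSet_Ico)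

theorem abs_haar_le (k : ℤ) (n : ℕ) (x : ℝ) : |haar k n x| ≤ 2 := by
  unfold haar
  rw [indicator_apply, indicator_apply]
  split_ifs <;> norm_num

/-! ### Cells -/

theorem mem_dyad_iff (L e q : ℕ) (x : ℝ) :
    x ∈ Ico ((2:ℝ) ^ e * q / 2 ^ L) ((2:ℝ) ^ e * (q + 1) / 2 ^ L)
      ↔ 0 ≤ x ∧ cidx L x / 2 ^ e = q := by
  have hL : (0:ℝ) < 2 ^ L := by positivity
  rw [mem_Ico, div_le_iff₀ hL, lt_div_iff₀ hL]
  constructor
  · rintro ⟨h1, h2⟩
    have hx : 0 ≤ x * 2 ^ L := le_trans (by positivity) h1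
    refine ⟨nonneg_of_mul_nonneg_left hx hL, ?_⟩
    have h1' : 2 ^ e * q ≤ cidx L x := Nat.le_floor (by push_cast; exact h1)
    have h2' : cidx L x < 2 ^ e * (q + 1) := (Nat.floor_lt hx).2 (by push_cast; exact h2)
    exact Nat.div_eq_of_lt_le (by linarith) (by linarith)
  · rintro ⟨h0, h⟩
    have hx : 0 ≤ x * 2 ^ L := by positivity
    have h1' : 2 ^ e * q ≤ cidx L x := by rw [← h]; exact Nat.mul_div_le _ _
    have h2' : cidx L x < 2 ^ e * (q + 1) := by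
      rw [← h]; exact Nat.lt_mul_div_succ _ (by positivity)
    constructor
    · have := (Nat.le_floor_iff hx).1 h1'
      exact_mod_cast this
    · have := (Nat.floor_lt hx).1 h2'
      exact_mod_cast this

theorem mem_gcell_iff (L a : ℕ) (x : ℝ) : x ∈ gcell L a ↔ 0 ≤ x ∧ cidx L x = a := by
  have := mem_dyad_iff L 0 a x
  simpa [gcell] using this

theorem cidx_lt {M L : ℕ} {x : ℝ} (hx : x ∈ box M) : cidx L x < 2 ^ (M + L) := by
  obtain ⟨h0, h1⟩ := hx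
  refine (Nat.floor_lt (by positivity)).2 ?_
  push_cast
  rw [pow_add]
  gcongr

theorem gcell_subset {M L a : ℕ} (ha : a < 2 ^ (M + L)) : gcell L a ⊆ box M := by
  intro x hx
  obtain ⟨h0, h1⟩ := (mem_gcell_iff L a x).1 hx
  refine ⟨h0, ?_⟩
  rw [← h1, cidx, Nat.floor_lt (by positivity)] at ha
  push_cast at ha
  rw [pow_add] at ha
  exact lt_of_mul_lt_mul_right ha (by positivity)

theorem measureReal_gcell (L a : ℕ) : volume.real (gcell L a) = 1 / 2 ^ L := by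
  rw [gcell, Real.volume_real_Ico_of_le (by gcongr; linarith)]
  ring

theorem setIntegral_eq_sum {α ι : Type*} [MeasurableSpace α] {μ : Measure α} (D : Set α)
    (T : Finset ι) (φ : α → ι) (E : ι → Set α) (H : ι → ℝ)
    (hE : ∀ p ∈ T, ∀ x, x ∈ E p ↔ x ∈ D ∧ φ x = p) (hφ : ∀ x ∈ D, φ x ∈ T)
    (hEm : ∀ p ∈ T, MeasurableSet (E p)) (hEfin : ∀ p ∈ T, μ (E p) ≠ ⊤) :
    ∫ x in D, H (φ x) ∂μ = ∑ p ∈ T, μ.real (E p) * H p := by
  have hD : D = ⋃ p ∈ T, E p := by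
    ext x
    simp only [mem_iUnion]
    exact ⟨fun hx => ⟨φ x, hφ x hx, (hE _ (hφ x hx) x).2 ⟨hx, rfl⟩⟩,
      fun ⟨p, hp, hx⟩ => ((hE p hp x).1 hx).1⟩
  have hc : ∀ p ∈ T, EqOn (fun x => H (φ x)) (fun _ => H p) (E p) :=
    fun p hp x hx => by simp [((hE p hp x).1 hx).2]
  have hi : ∀ p ∈ T, IntegrableOn (fun x => H (φ x)) (E p) μ := fun p hp =>
    (integrableOn_congr_fun (hc p hp) (hEm p hp)).2 (integrableOn_const (hEfin p hp))
  rw [hD, integral_biUnion_finset T hEm ?_ hi]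
  · refine Finset.sum_congr rfl fun p hp => ?_
    rw [setIntegral_congr_fun (hEm p hp) (hc p hp), setIntegral_const, smul_eq_mul]
  · intro p hp q hq hpq
    refine disjoint_left.2 fun x hx hy => hpq ?_
    rw [← ((hE p hp x).1 hx).2, ← ((hE q hq x).1 hy).2]

theorem volume_real_prod {α β : Type*} [MeasureSpace α] [MeasureSpace β]
    [SFinite (volume : Measure β)] (s : Set α) (t : Set β) :
    (volume : Measure (α × β)).real (s ×ˢ t) = volume.real s * volume.real t := by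
  simp [Measure.real, Measure.volume_eq_prod, Measure.prod_prod]

theorem volume_box2_lt_top (M : ℕ) : volume (box2 M) < ⊤ := by
  rw [box2, Measure.volume_eq_prod, Measure.prod_prod]
  simp [box, Real.volume_Ico, ENNReal.mul_lt_top]

theorem volume_box3_lt_top (M : ℕ) : volume (box3 M) < ⊤ := by
  rw [box3, Measure.volume_eq_prod, Measure.prod_prod, Measure.volume_eq_prod, Measure.prod_prod]
  simp [box, Real.volume_Ico, ENNReal.mul_lt_top]

theorem measurableSet_box2 (M : ℕ) : MeasurableSet (box2 M) :=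
  measurableSet_Ico.prod measurableSet_Ico

theorem measurableSet_box3 (M : ℕ) : MeasurableSet (box3 M) :=
  measurableSet_Ico.prod (measurableSet_Ico.prod measurableSet_Ico)

theorem integral_box2_step (M L : ℕ) (H : ℕ → ℕ → ℝ) :
    ∫ x in box2 M, H (cidx L x.1) (cidx L x.2)
      = (1 / 2 ^ L) ^ 2 * ∑ a ∈ Finset.range (2 ^ (M + L)), ∑ b ∈ Finset.range (2 ^ (M + L)),
          H a b := by
  rw [setIntegral_eq_sum (box2 M) (Finset.range (2 ^ (M + L)) ×ˢ Finset.range (2 ^ (M + L)))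
    (fun x : ℝ × ℝ => (cidx L x.1, cidx L x.2)) (fun p => gcell L p.1 ×ˢ gcell L p.2)
    (fun p => H p.1 p.2)]
  · rw [Finset.mul_sum, Finset.sum_product]
    refine Finset.sum_congr rfl fun a _ => ?_
    rw [Finset.mul_sum]
    refine Finset.sum_congr rfl fun b _ => ?_
    rw [volume_real_prod, measureReal_gcell, measureReal_gcell]
    ring
  · rintro ⟨a, b⟩ hp x
    simp only [Finset.mem_product, Finset.mem_range] at hp
    simp only [mem_prod, box2, Prod.mk.injEq]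
    constructor
    · rintro ⟨hx, hy⟩
      exact ⟨⟨gcell_subset hp.1 hx, gcell_subset hp.2 hy⟩,
        ((mem_gcell_iff L a _).1 hx).2, ((mem_gcell_iff L b _).1 hy).2⟩
    · rintro ⟨⟨hx, hy⟩, ha, hb⟩
      exact ⟨(mem_gcell_iff L a _).2 ⟨hx.1, ha⟩, (mem_gcell_iff L b _).2 ⟨hy.1, hb⟩⟩
  · rintro x ⟨hx, hy⟩
    simp [cidx_lt hx, cidx_lt hy]
  · exact fun p _ => measurableSet_Ico.prod measurableSet_Ico
  · intro p hp
    simp only [Finset.mem_product, Finset.mem_range] at hp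
    exact (lt_of_le_of_lt (measure_mono (prod_mono (gcell_subset hp.1) (gcell_subset hp.2)))
      (volume_box2_lt_top M)).ne

theorem integral_box3_step (M L : ℕ) (H : ℕ → ℕ → ℕ → ℝ) :
    ∫ x in box3 M, H (cidx L x.1) (cidx L x.2.1) (cidx L x.2.2)
      = (1 / 2 ^ L) ^ 3 * ∑ a ∈ Finset.range (2 ^ (M + L)), ∑ b ∈ Finset.range (2 ^ (M + L)),
          ∑ c ∈ Finset.range (2 ^ (M + L)), H a b c := by
  rw [setIntegral_eq_sum (box3 M)
    (Finset.range (2 ^ (M + L)) ×ˢ Finset.range (2 ^ (M + L)) ×ˢ Finset.range (2 ^ (M + L)))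
    (fun x : ℝ × ℝ × ℝ => (cidx L x.1, cidx L x.2.1, cidx L x.2.2))
    (fun p => gcell L p.1 ×ˢ (gcell L p.2.1 ×ˢ gcell L p.2.2))
    (fun p => H p.1 p.2.1 p.2.2)]
  · rw [Finset.mul_sum, Finset.sum_product]
    refine Finset.sum_congr rfl fun a _ => ?_
    rw [Finset.mul_sum, Finset.sum_product]
    refine Finset.sum_congr rfl fun b _ => ?_
    rw [Finset.mul_sum]
    refine Finset.sum_congr rfl fun c _ => ?_
    rw [volume_real_prod, volume_real_prod, measureReal_gcell, measureReal_gcell,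
      measureReal_gcell]
    ring
  · rintro ⟨a, b, c⟩ hp x
    simp only [Finset.mem_product, Finset.mem_range] at hp
    simp only [mem_prod, box3, Prod.mk.injEq]
    constructor
    · rintro ⟨hx, hy, hz⟩
      exact ⟨⟨gcell_subset hp.1 hx, gcell_subset hp.2.1 hy, gcell_subset hp.2.2 hz⟩,
        ((mem_gcell_iff L a _).1 hx).2, ((mem_gcell_iff L b _).1 hy).2,
        ((mem_gcell_iff L c _).1 hz).2⟩
    · rintro ⟨⟨hx, hy, hz⟩, ha, hb, hc⟩
      exact ⟨(mem_gcell_iff L a _).2 ⟨hx.1, ha⟩, (mem_gcell_iff L b _).2 ⟨hy.1, hb⟩,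
        (mem_gcell_iff L c _).2 ⟨hz.1, hc⟩⟩
  · rintro x ⟨hx, hy, hz⟩
    simp [cidx_lt hx, cidx_lt hy, cidx_lt hz]
  · exact fun p _ => measurableSet_Ico.prod (measurableSet_Ico.prod measurableSet_Ico)
  · intro p hp
    simp only [Finset.mem_product, Finset.mem_range] at hp
    exact (lt_of_le_of_lt (measure_mono (prod_mono (gcell_subset hp.1)
      (prod_mono (gcell_subset hp.2.1) (gcell_subset hp.2.2))))
      (volume_box3_lt_top M)).ne

/-! ### Haar functions on the grid -/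

/-- The Haar function of index `n` at cell `a`, when an interval holds `2 ^ d` cells. -/
def hcoef (d n a : ℕ) : ℝ := if a >>> d = n then bsgn a (d - 1) else 0

theorem haar_grid {L d : ℕ} {k : ℤ} (hd : 1 ≤ d) (hk : k = (d : ℤ) - L) (n : ℕ) {x : ℝ}
    (hx : 0 ≤ x) : haar k n x = hcoef d n (cidx L x) := by
  obtain ⟨e, rfl⟩ : ∃ e, d = e + 1 := ⟨d - 1, by omega⟩
  have hp : (2:ℝ) ^ k = 2 ^ (e + 1) / 2 ^ L := by
    rw [hk, zpow_sub₀ (by norm_num : (2:ℝ) ≠ 0)]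
    norm_cast
  have e1 : Ico ((2:ℝ) ^ k * n) ((2:ℝ) ^ k * (n + 1 / 2))
      = Ico ((2:ℝ) ^ e * ((2 * n : ℕ) : ℝ) / 2 ^ L)
          ((2:ℝ) ^ e * (((2 * n : ℕ) : ℝ) + 1) / 2 ^ L) := by
    congr 1 <;> rw [hp] <;> push_cast <;> ring
  have e2 : Ico ((2:ℝ) ^ k * (n + 1 / 2)) ((2:ℝ) ^ k * (n + 1))
      = Ico ((2:ℝ) ^ e * ((2 * n + 1 : ℕ) : ℝ) / 2 ^ L)
          ((2:ℝ) ^ e * (((2 * n + 1 : ℕ) : ℝ) + 1) / 2 ^ L) := by
    congr 1 <;> rw [hp] <;> push_cast <;> ring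
  have hdiv : cidx L x >>> (e + 1) = cidx L x / 2 ^ e / 2 := by
    rw [Nat.shiftRight_eq_div_pow, pow_succ, Nat.div_div_eq_div_mul]
  rw [haar, e1, e2, indicator_apply, indicator_apply, hcoef, bsgn, hdiv,
    Nat.add_sub_cancel, Nat.testBit_eq_decide_div_mod_eq]
  simp only [mem_dyad_iff, hx, true_and, decide_eq_true_eq]
  generalize cidx L x / 2 ^ e = t
  split_ifs <;> first | omega | norm_num

theorem mem_dyadicIco_grid {L d : ℕ} {k : ℤ} (hk : k = (d : ℤ) - L) (n : ℕ) (x : ℝ) :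
    x ∈ dyadicIco k n ↔ 0 ≤ x ∧ cidx L x >>> d = n := by
  have hp : (2:ℝ) ^ k = 2 ^ d / 2 ^ L := by
    rw [hk, zpow_sub₀ (by norm_num : (2:ℝ) ≠ 0)]
    norm_cast
  have e1 : dyadicIco k n
      = Ico ((2:ℝ) ^ d * (n : ℝ) / 2 ^ L) ((2:ℝ) ^ d * ((n : ℝ) + 1) / 2 ^ L) := by
    rw [dyadicIco, hp]
    congr 1 <;> ring
  rw [e1, mem_dyad_iff, Nat.shiftRight_eq_div_pow]

theorem dyadicIco_subset_box {M : ℕ} {k : ℤ} (hkM : k ≤ M) {n : ℕ} (hn : n < 2 ^ lev M k) :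
    dyadicIco k n ⊆ box M := by
  intro x hx
  have hp : (0:ℝ) < (2:ℝ) ^ k := by positivity
  refine ⟨le_trans (by positivity) hx.1, lt_of_lt_of_le hx.2 ?_⟩
  have h1 : ((n : ℝ) + 1) ≤ 2 ^ lev M k := by exact_mod_cast hn
  calc (2:ℝ) ^ k * ((n : ℝ) + 1) ≤ 2 ^ k * 2 ^ lev M k := by gcongr
    _ = 2 ^ M := by
        rw [← zpow_natCast, ← zpow_add₀ (by norm_num : (2:ℝ) ≠ 0)]
        rw [show k + (lev M k : ℤ) = (M : ℤ) by unfold lev; omega]
        exact zpow_natCast _ _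

theorem triple_step {M L d : ℕ} {k : ℤ} (hd : 1 ≤ d) (hk : k = (d : ℤ) - L) (hkM : k ≤ M)
    {n0 n1 n2 : ℕ} (h0 : n0 < 2 ^ lev M k) (h1 : n1 < 2 ^ lev M k) (h2 : n2 < 2 ^ lev M k)
    (f g h : ℕ → ℕ → ℝ) :
    triple k n0 n1 n2 (stepFun L f) (stepFun L g) (stepFun L h)
      = ((2:ℝ) ^ k)⁻¹ * ((1 / 2 ^ L) ^ 3 *
        ∑ a ∈ Finset.range (2 ^ (M + L)), ∑ b ∈ Finset.range (2 ^ (M + L)),
          ∑ c ∈ Finset.range (2 ^ (M + L)),
            f a b * g b c * h c a * (hcoef d n0 a * hcoef d n1 b * hcoef d n2 c)) := by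
  rw [triple, ← integral_box3_step]
  congr 1
  have hms : MeasurableSet (dyadicIco k n0 ×ˢ (dyadicIco k n1 ×ˢ dyadicIco k n2)) :=
    measurableSet_Ico.prod (measurableSet_Ico.prod measurableSet_Ico)
  have hsub : dyadicIco k n0 ×ˢ (dyadicIco k n1 ×ˢ dyadicIco k n2) ⊆ box3 M :=
    prod_mono (dyadicIco_subset_box hkM h0)
      (prod_mono (dyadicIco_subset_box hkM h1) (dyadicIco_subset_box hkM h2))
  symm
  rw [setIntegral_eq_of_subset_of_forall_sdiff_eq_zero (measurableSet_box3 M) hsub]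
  · refine setIntegral_congr_fun hms fun x hx => ?_
    obtain ⟨hx1, hx2, hx3⟩ := hsub hx
    simp only [stepFun, haar_grid hd hk _ hx1.1, haar_grid hd hk _ hx2.1, haar_grid hd hk _ hx3.1]
  · rintro x ⟨⟨hx1, hx2, hx3⟩, hxn⟩
    simp only [mem_prod, mem_dyadicIco_grid hk, hx1.1, hx2.1, hx3.1, true_and] at hxn
    simp only [hcoef]
    split_ifs <;> simp_all

theorem bsgn_xor (a b i : ℕ) : bsgn (a ^^^ b) i = bsgn a i * bsgn b i := by
  unfold bsgn
  rw [Nat.testBit_xor]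
  cases a.testBit i <;> cases b.testBit i <;> norm_num

theorem sum_hcoef {j d a b c : ℕ} (ha : a >>> d < 2 ^ j) (hb : b >>> d < 2 ^ j) :
    (∑ p ∈ Finset.range (2 ^ j) ×ˢ Finset.range (2 ^ j),
        hcoef d p.1 a * hcoef d p.2 b * hcoef d (p.1 ^^^ p.2) c)
      = if (a ^^^ b ^^^ c) >>> d = 0 then bsgn (a ^^^ b ^^^ c) (d - 1) else 0 := by
  rw [Finset.sum_eq_single (a >>> d, b >>> d)]
  · simp only [hcoef, Nat.shiftRight_xor_distrib, if_true, bsgn_xor]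
    by_cases h : c >>> d = a >>> d ^^^ b >>> d
    · simp [h]
    · have h' : ¬ (a >>> d ^^^ b >>> d ^^^ c >>> d = 0) := fun h0 =>
        h (Nat.xor_eq_zero_iff.1 h0).symm
      simp [h, h']
  · rintro ⟨p, q⟩ _ hne
    simp only [hcoef]
    by_cases hp : a >>> d = p
    · by_cases hq : b >>> d = q
      · exact absurd (by rw [hp, hq]) hne
      · simp [hq]
    · simp [hp]
  · intro hn
    exact absurd (by simp [ha, hb]) hn

theorem boxForm_step {M L : ℕ} (S : Finset ℤ) (eps : ℤ → ℝ) (hM : ∀ k ∈ S, k ≤ (M : ℤ))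
    (hL : ∀ k ∈ S, 1 ≤ k + (L : ℤ)) (f g h : ℕ → ℕ → ℝ) :
    boxForm S eps M (stepFun L f) (stepFun L g) (stepFun L h)
      = ((2:ℝ) ^ M) ^ 2
        * dform (M + L) (fun j => if (M : ℤ) - j ∈ S then eps (M - j) else 0) f g h := by
  classical
  unfold boxForm dform
  rw [Finset.mul_sum]
  have hkey : ∀ k ∈ S,
      eps k * ∑ p ∈ Finset.range (2 ^ lev M k) ×ˢ Finset.range (2 ^ lev M k),
        triple k p.1 p.2 (p.1 ^^^ p.2) (stepFun L f) (stepFun L g) (stepFun L h)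
      = ((2:ℝ) ^ M) ^ 2 * (eps k * dscale (M + L) (lev M k) f g h) := by
    intro k hkS
    have hkM := hM k hkS
    have hkL := hL k hkS
    set j := lev M k with hj
    have hjz : (j : ℤ) = (M : ℤ) - k := by rw [hj, lev]; omega
    obtain ⟨d, hd⟩ : ∃ d : ℕ, (d : ℤ) = k + L := ⟨(k + L).toNat, by omega⟩
    have hd1 : 1 ≤ d := by omega
    have hk : k = (d : ℤ) - L := by omega
    have hm1 : M + L - j = d := by omega
    have hm2 : M + L - 1 - j = d - 1 := by omega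
    rw [Finset.sum_congr rfl (fun p hp => by
      simp only [Finset.mem_product, Finset.mem_range] at hp
      exact triple_step hd1 hk hkM (hj ▸ hp.1) (hj ▸ hp.2)
        (hj ▸ Nat.xor_lt_two_pow hp.1 hp.2) f g h)]
    rw [← Finset.mul_sum, ← Finset.mul_sum, Finset.sum_comm]
    have hsum : ∀ a ∈ Finset.range (2 ^ (M + L)),
        (∑ p ∈ Finset.range (2 ^ j) ×ˢ Finset.range (2 ^ j),
          ∑ b ∈ Finset.range (2 ^ (M + L)), ∑ c ∈ Finset.range (2 ^ (M + L)),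
            f a b * g b c * h c a * (hcoef d p.1 a * hcoef d p.2 b * hcoef d (p.1 ^^^ p.2) c))
        = ∑ b ∈ Finset.range (2 ^ (M + L)), ∑ c ∈ Finset.range (2 ^ (M + L)),
            if (a ^^^ b ^^^ c) >>> (M + L - j) = 0
              then bsgn (a ^^^ b ^^^ c) (M + L - 1 - j) * f a b * g b c * h c a else 0 := by
      intro a ha
      rw [Finset.sum_comm]
      refine Finset.sum_congr rfl fun b hb => ?_
      rw [Finset.sum_comm]
      refine Finset.sum_congr rfl fun c _ => ?_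
      rw [← Finset.mul_sum]
      have hlt : ∀ t, t ∈ Finset.range (2 ^ (M + L)) → t >>> d < 2 ^ j := by
        intro t ht
        rw [Nat.shiftRight_eq_div_pow, Nat.div_lt_iff_lt_mul (by positivity), ← pow_add,
          show j + d = M + L by omega]
        exact Finset.mem_range.1 ht
      rw [sum_hcoef (hlt a ha) (hlt b hb), hm1, hm2]
      split_ifs <;> ring
    rw [Finset.sum_congr rfl hsum, dscale]
    have hp : (2:ℝ) ^ M = (2:ℝ) ^ k * 2 ^ j := by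
      rw [← zpow_natCast, ← zpow_natCast (2:ℝ) j, ← zpow_add₀ (by norm_num : (2:ℝ) ≠ 0),
        show k + (j : ℤ) = (M : ℤ) by omega]
    have hk0 : (2:ℝ) ^ k ≠ 0 := by positivity
    rw [show ((2:ℝ) ^ (M + L)) = 2 ^ k * 2 ^ j * 2 ^ L by rw [pow_add, hp], hp]
    field_simp
  rw [Finset.sum_congr rfl hkey]
  refine Finset.sum_bij_ne_zero (fun k _ _ => lev M k) ?_ ?_ ?_ ?_
  · intro k hk _
    have := hM k hk
    have := hL k hk
    simp only [Finset.mem_range, lev]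
    omega
  · intro k1 h1 _ k2 h2 _ he
    have := hM k1 h1
    have := hM k2 h2
    simp only [lev] at he
    omega
  · intro j hj hne
    by_cases hS : (M : ℤ) - j ∈ S
    · have hl : lev M ((M : ℤ) - j) = j := by simp [lev]
      refine ⟨(M : ℤ) - j, hS, ?_, hl⟩
      simpa [hS, hl] using hne
    · simp [hS] at hne
  · intro k hk _
    have := hM k hk
    have hl : (M : ℤ) - (lev M k : ℤ) = k := by simp only [lev]; omega
    simp [hl, hk]

theorem cubeInt_step (M L : ℕ) (f : ℕ → ℕ → ℝ) :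
    cubeInt M (stepFun L f)
      = ((2:ℝ) ^ M) ^ 2 * ((∑ a ∈ Finset.range (2 ^ (M + L)), ∑ b ∈ Finset.range (2 ^ (M + L)),
          |f a b| ^ 3) / ((2:ℝ) ^ (M + L)) ^ 2) := by
  have := integral_box2_step M L (fun a b => |f a b| ^ 3)
  unfold cubeInt stepFun
  rw [this, pow_add (2:ℝ)]
  field_simp

theorem boxForm_step_le {C : ℝ}
    (hd : ∀ m eps, (∀ j, |eps j| ≤ 1) → ∀ f g h, |dform m eps f g h| ≤ C * dnorm m f g h)
    {M L : ℕ} (S : Finset ℤ) (eps : ℤ → ℝ) (he : ∀ k, |eps k| ≤ 1) (hM : ∀ k ∈ S, k ≤ (M : ℤ))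
    (hL : ∀ k ∈ S, 1 ≤ k + (L : ℤ)) (f g h : ℕ → ℕ → ℝ) :
    |boxForm S eps M (stepFun L f) (stepFun L g) (stepFun L h)|
      ≤ C * (cubeInt M (stepFun L f) + cubeInt M (stepFun L g) + cubeInt M (stepFun L h)) := by
  rw [boxForm_step S eps hM hL, cubeInt_step, cubeInt_step, cubeInt_step, abs_mul,
    abs_of_pos (by positivity : (0:ℝ) < ((2:ℝ) ^ M) ^ 2)]
  refine le_trans (mul_le_mul_of_nonneg_left (hd (M + L) _ ?_ f g h) (by positivity)) (le_of_eq ?_)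
  · intro j
    split_ifs
    · exact he _
    · simp
  · simp only [dnorm, Finset.sum_add_distrib]
    ring

/-! ### Limits -/

theorem tendsto_cubeInt {M : ℕ} {B : ℝ} {G : ℕ → ℝ × ℝ → ℝ} {F : ℝ × ℝ → ℝ}
    (hG : ∀ i, Measurable (G i)) (hB : ∀ i, ∀ x ∈ box2 M, |G i x| ≤ B)
    (hlim : ∀ᵐ x, x ∈ box2 M → Tendsto (fun i => G i x) atTop (𝓝 (F x))) :
    Tendsto (fun i => cubeInt M (G i)) atTop (𝓝 (cubeInt M F)) := by
  refine tendsto_integral_of_dominated_convergence (fun _ => B ^ 3)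
    (fun i => ((hG i).abs.pow_const 3).aestronglyMeasurable)
    (integrableOn_const (volume_box2_lt_top M).ne) (fun i => ?_) ?_
  · refine (ae_restrict_iff' (measurableSet_box2 M)).2 (Eventually.of_forall fun x hx => ?_)
    rw [Real.norm_eq_abs, abs_of_nonneg (by positivity)]
    exact pow_le_pow_left₀ (abs_nonneg _) (hB i x hx) 3
  · refine (ae_restrict_iff' (measurableSet_box2 M)).2 ?_
    filter_upwards [hlim] with x hx hm
    exact ((hx hm).abs.pow 3)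

theorem qmp_xy : Measure.QuasiMeasurePreserving (fun x : ℝ × ℝ × ℝ => (x.1, x.2.1))
    volume volume := by
  rw [Measure.volume_eq_prod, Measure.volume_eq_prod]
  exact MeasureTheory.QuasiMeasurePreserving.prodMap
    (Measure.QuasiMeasurePreserving.id (volume : Measure ℝ))
    (Measure.quasiMeasurePreserving_fst (μ := (volume : Measure ℝ)) (ν := (volume : Measure ℝ)))

theorem qmp_yz : Measure.QuasiMeasurePreserving (fun x : ℝ × ℝ × ℝ => x.2) volume volume := by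
  rw [Measure.volume_eq_prod ℝ (ℝ × ℝ)]
  exact Measure.quasiMeasurePreserving_snd

theorem qmp_zx : Measure.QuasiMeasurePreserving (fun x : ℝ × ℝ × ℝ => (x.2.2, x.1))
    volume volume := by
  rw [Measure.volume_eq_prod, Measure.volume_eq_prod]
  exact (Measure.measurePreserving_swap (μ := (volume : Measure ℝ))
    (ν := (volume : Measure ℝ))).quasiMeasurePreserving.comp
    (MeasureTheory.QuasiMeasurePreserving.prodMap
      (Measure.QuasiMeasurePreserving.id (volume : Measure ℝ))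
      (Measure.quasiMeasurePreserving_snd (μ := (volume : Measure ℝ)) (ν := (volume : Measure ℝ))))

theorem tendsto_boxForm {S : Finset ℤ} {eps : ℤ → ℝ} {M : ℕ} {B : ℝ}
    (hM : ∀ k ∈ S, k ≤ (M : ℤ))
    {G0 G1 G2 : ℕ → ℝ × ℝ → ℝ} {F0 F1 F2 : ℝ × ℝ → ℝ}
    (hm0 : ∀ i, Measurable (G0 i)) (hm1 : ∀ i, Measurable (G1 i)) (hm2 : ∀ i, Measurable (G2 i))
    (hb0 : ∀ i, ∀ x ∈ box2 M, |G0 i x| ≤ B) (hb1 : ∀ i, ∀ x ∈ box2 M, |G1 i x| ≤ B)
    (hb2 : ∀ i, ∀ x ∈ box2 M, |G2 i x| ≤ B)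
    (hl0 : ∀ᵐ x, x ∈ box2 M → Tendsto (fun i => G0 i x) atTop (𝓝 (F0 x)))
    (hl1 : ∀ᵐ x, x ∈ box2 M → Tendsto (fun i => G1 i x) atTop (𝓝 (F1 x)))
    (hl2 : ∀ᵐ x, x ∈ box2 M → Tendsto (fun i => G2 i x) atTop (𝓝 (F2 x))) :
    Tendsto (fun i => boxForm S eps M (G0 i) (G1 i) (G2 i)) atTop
      (𝓝 (boxForm S eps M F0 F1 F2)) := by
  refine tendsto_finsetSum _ fun k hk => Tendsto.const_mul _ (tendsto_finsetSum _ fun p hp => ?_)
  simp only [Finset.mem_product, Finset.mem_range] at hp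
  have hsub : dyadicIco k p.1 ×ˢ (dyadicIco k p.2 ×ˢ dyadicIco k (p.1 ^^^ p.2)) ⊆ box3 M :=
    prod_mono (dyadicIco_subset_box (hM k hk) hp.1)
      (prod_mono (dyadicIco_subset_box (hM k hk) hp.2)
        (dyadicIco_subset_box (hM k hk) (Nat.xor_lt_two_pow hp.1 hp.2)))
  have hms : MeasurableSet (dyadicIco k p.1 ×ˢ (dyadicIco k p.2 ×ˢ dyadicIco k (p.1 ^^^ p.2))) :=
    measurableSet_Ico.prod (measurableSet_Ico.prod measurableSet_Ico)
  refine Tendsto.const_mul _ (tendsto_integral_of_dominated_convergence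
    (fun _ => B * B * B * (2 * 2 * 2)) (fun i => ?_) ?_ (fun i => ?_) ?_)
  · refine Measurable.aestronglyMeasurable ?_
    exact ((((hm0 i).comp (measurable_fst.prodMk (measurable_fst.comp measurable_snd))).mul
      ((hm1 i).comp ((measurable_fst.comp measurable_snd).prodMk
        (measurable_snd.comp measurable_snd)))).mul
      ((hm2 i).comp ((measurable_snd.comp measurable_snd).prodMk measurable_fst))).mul
      ((((measurable_haar k _).comp measurable_fst).mul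
        ((measurable_haar k _).comp (measurable_fst.comp measurable_snd))).mul
        ((measurable_haar k _).comp (measurable_snd.comp measurable_snd)))
  · exact integrableOn_const (lt_of_le_of_lt (measure_mono hsub) (volume_box3_lt_top M)).ne
  · refine (ae_restrict_iff' hms).2 (Eventually.of_forall fun x hx => ?_)
    obtain ⟨hx1, hx2, hx3⟩ := hsub hx
    have a0 := hb0 i (x.1, x.2.1) ⟨hx1, hx2⟩
    have a1 := hb1 i (x.2.1, x.2.2) ⟨hx2, hx3⟩
    have a2 := hb2 i (x.2.2, x.1) ⟨hx3, hx1⟩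
    have hB : 0 ≤ B := le_trans (abs_nonneg _) a0
    simp only [Real.norm_eq_abs, abs_mul]
    refine mul_le_mul (mul_le_mul (mul_le_mul a0 a1 (abs_nonneg _) hB) a2 (abs_nonneg _)
      (by positivity)) (mul_le_mul (mul_le_mul (abs_haar_le _ _ _) (abs_haar_le _ _ _)
      (abs_nonneg _) (by norm_num)) (abs_haar_le _ _ _) (abs_nonneg _) (by norm_num))
      (by positivity) (by positivity)
  · refine (ae_restrict_iff' hms).2 ?_
    filter_upwards [qmp_xy.ae hl0, qmp_yz.ae hl1, qmp_zx.ae hl2] with x t0 t1 t2 hx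
    obtain ⟨hx1, hx2, hx3⟩ := hsub hx
    exact (((t0 ⟨hx1, hx2⟩).mul (t1 ⟨hx2, hx3⟩)).mul (t2 ⟨hx3, hx1⟩)).mul_const _

theorem tendsto_cidx_div {x : ℝ} (hx : 0 ≤ x) (L0 : ℕ) :
    Tendsto (fun i => (cidx (i + L0) x : ℝ) / 2 ^ (i + L0)) atTop (𝓝 x) := by
  have hp : Tendsto (fun i : ℕ => ((1:ℝ) / 2) ^ (i + L0)) atTop (𝓝 0) :=
    (tendsto_pow_atTop_nhds_zero_of_lt_one (by norm_num) (by norm_num)).comp
      (tendsto_add_atTop_nat L0)
  rw [tendsto_iff_norm_sub_tendsto_zero]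
  refine squeeze_zero (fun i => norm_nonneg _) (fun i => ?_) hp
  have hL : (0:ℝ) < 2 ^ (i + L0) := by positivity
  have h1 : (cidx (i + L0) x : ℝ) ≤ x * 2 ^ (i + L0) := Nat.floor_le (by positivity)
  have h2 : x * 2 ^ (i + L0) < (cidx (i + L0) x : ℝ) + 1 := Nat.lt_floor_add_one _
  rw [Real.norm_eq_abs, abs_le, div_pow, one_pow]
  constructor
  · rw [neg_le_sub_iff_le_add, ← add_div, le_div_iff₀ hL]
    linarith
  · rw [sub_le_iff_le_add, div_le_iff₀ hL, add_mul, div_mul_cancel₀ _ hL.ne']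
    linarith

theorem cidx_div_mem {M L : ℕ} {x : ℝ} (hx : x ∈ box M) :
    (cidx L x : ℝ) / 2 ^ L ∈ Icc (0:ℝ) (2 ^ M) := by
  have h1 : (cidx L x : ℝ) < 2 ^ (M + L) := by exact_mod_cast cidx_lt hx
  refine ⟨by positivity, (div_le_iff₀ (by positivity)).2 ?_⟩
  rw [← pow_add]
  exact h1.le

theorem boxForm_continuous_le {C : ℝ}
    (hd : ∀ m eps, (∀ j, |eps j| ≤ 1) → ∀ f g h, |dform m eps f g h| ≤ C * dnorm m f g h)
    {M : ℕ} (S : Finset ℤ) (eps : ℤ → ℝ) (he : ∀ k, |eps k| ≤ 1) (hM : ∀ k ∈ S, k ≤ (M : ℤ))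
    {G0 G1 G2 : ℝ × ℝ → ℝ} (h0 : Continuous G0) (h1 : Continuous G1) (h2 : Continuous G2) :
    |boxForm S eps M G0 G1 G2| ≤ C * (cubeInt M G0 + cubeInt M G1 + cubeInt M G2) := by
  obtain ⟨L0, hL0⟩ : ∃ L0 : ℕ, ∀ k ∈ S, 1 ≤ k + (L0 : ℤ) := by
    refine ⟨S.sup fun k => (1 - k).toNat, fun k hk => ?_⟩
    have := Finset.le_sup (f := fun k : ℤ => (1 - k).toNat) hk
    omega
  obtain ⟨B, hB⟩ : ∃ B, ∀ x ∈ Icc (0:ℝ) (2 ^ M) ×ˢ Icc (0:ℝ) (2 ^ M),
      |G0 x| ≤ B ∧ |G1 x| ≤ B ∧ |G2 x| ≤ B := by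
    obtain ⟨B, hB⟩ := (isCompact_Icc.prod isCompact_Icc).exists_bound_of_continuousOn
      ((h0.abs.add h1.abs).add h2.abs).continuousOn
    refine ⟨B, fun x hx => ?_⟩
    have := hB x hx
    simp only [Pi.add_apply, Real.norm_eq_abs] at this
    rw [abs_of_nonneg (by positivity)] at this
    have := abs_nonneg (G0 x)
    have := abs_nonneg (G1 x)
    have := abs_nonneg (G2 x)
    exact ⟨by linarith, by linarith, by linarith⟩
  let s : (ℝ × ℝ → ℝ) → ℕ → ℝ × ℝ → ℝ := fun G i =>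
    stepFun (i + L0) fun a b => G ((a : ℝ) / 2 ^ (i + L0), (b : ℝ) / 2 ^ (i + L0))
  have hl : ∀ G : ℝ × ℝ → ℝ, Continuous G →
      ∀ᵐ x, x ∈ box2 M → Tendsto (fun i => s G i x) atTop (𝓝 (G x)) := by
    intro G hG
    refine Eventually.of_forall fun x hx => ?_
    exact (hG.tendsto x).comp
      ((tendsto_cidx_div hx.1.1 L0).prodMk_nhds (tendsto_cidx_div hx.2.1 L0))
  have hmem : ∀ (i : ℕ) (x : ℝ × ℝ), x ∈ box2 M →
      ((cidx (i + L0) x.1 : ℝ) / 2 ^ (i + L0), (cidx (i + L0) x.2 : ℝ) / 2 ^ (i + L0))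
        ∈ Icc (0:ℝ) (2 ^ M) ×ˢ Icc (0:ℝ) (2 ^ M) :=
    fun i x hx => ⟨cidx_div_mem hx.1, cidx_div_mem hx.2⟩
  have hm : ∀ G i, Measurable (s G i) := fun G i => measurable_stepFun _ _
  refine le_of_tendsto_of_tendsto'
    (tendsto_boxForm (B := B) hM (hm G0) (hm G1) (hm G2)
      (fun i x hx => (hB _ (hmem i x hx)).1) (fun i x hx => (hB _ (hmem i x hx)).2.1)
      (fun i x hx => (hB _ (hmem i x hx)).2.2) (hl G0 h0) (hl G1 h1) (hl G2 h2)).abs
    ((((tendsto_cubeInt (B := B) (hm G0) (fun i x hx => (hB _ (hmem i x hx)).1) (hl G0 h0)).add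
      (tendsto_cubeInt (B := B) (hm G1) (fun i x hx => (hB _ (hmem i x hx)).2.1) (hl G1 h1))).add
      (tendsto_cubeInt (B := B) (hm G2) (fun i x hx => (hB _ (hmem i x hx)).2.2)
        (hl G2 h2))).const_mul C) fun i => ?_
  exact boxForm_step_le hd S eps he hM (fun k hk => by have := hL0 k hk; omega) _ _ _

theorem exists_continuous_approx {M : ℕ} {B : ℝ} (hB0 : 0 ≤ B) {F : ℝ × ℝ → ℝ}
    (hF : Measurable F) (hB : ∀ x, |F x| ≤ B) :
    ∃ g : ℕ → ℝ × ℝ → ℝ, (∀ i, Continuous (g i)) ∧ (∀ i x, |g i x| ≤ B) ∧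
      ∀ᵐ x, x ∈ box2 M → Tendsto (fun i => g i x) atTop (𝓝 (F x)) := by
  have hf : MemLp ((box2 M).indicator F) 1 volume := by
    rw [memLp_one_iff_integrable, integrable_indicator_iff (measurableSet_box2 M)]
    exact IntegrableOn.of_bound (volume_box2_lt_top M) hF.aestronglyMeasurable B
      (Eventually.of_forall fun x => by simpa using hB x)
  obtain ⟨g, hg⟩ : ∃ g : ℕ → ℝ × ℝ → ℝ, ∀ i, Continuous (g i) ∧
      eLpNorm (g i - (box2 M).indicator F) 1 volume ≤ ((i : ENNReal) + 1)⁻¹ := by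
    suffices h : ∀ i : ℕ, ∃ g : ℝ × ℝ → ℝ, Continuous g ∧
        eLpNorm (g - (box2 M).indicator F) 1 volume ≤ ((i : ENNReal) + 1)⁻¹ by
      choose g hg using h
      exact ⟨g, hg⟩
    intro i
    obtain ⟨g, -, h1, h2, -⟩ := hf.exists_hasCompactSupport_eLpNorm_sub_le (by norm_num)
      (ε := ((i : ENNReal) + 1)⁻¹) (by simp)
    exact ⟨g, h2, by rw [← eLpNorm_neg]; simpa using h1⟩
  have hlim : Tendsto (fun i => eLpNorm (g i - (box2 M).indicator F) 1 volume) atTop (𝓝 0) := by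
    refine tendsto_of_tendsto_of_tendsto_of_le_of_le tendsto_const_nhds ?_ (fun i => zero_le)
      fun i => (hg i).2
    have := ENNReal.tendsto_inv_nat_nhds_zero.comp (tendsto_add_atTop_nat 1)
    simpa [Function.comp_def] using this
  obtain ⟨ns, -, hns⟩ := (tendstoInMeasure_of_tendsto_eLpNorm one_ne_zero
    (fun i => (hg i).1.aestronglyMeasurable) hf.aestronglyMeasurable hlim).exists_seq_tendsto_ae
  refine ⟨fun i x => max (-B) (min B (g (ns i) x)),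
    fun i => continuous_const.max (continuous_const.min (hg (ns i)).1), fun i x => ?_, ?_⟩
  · rw [abs_le]
    exact ⟨le_max_left _ _, max_le (by linarith) (min_le_left _ _)⟩
  · filter_upwards [hns] with x hx hm
    rw [indicator_of_mem hm] at hx
    have h := abs_le.1 (hB x)
    have : max (-B) (min B (F x)) = F x := by rw [min_eq_right h.2, max_eq_right h.1]
    rw [← this]
    exact (continuous_const.max (continuous_const.min continuous_id)).tendsto _ |>.comp hx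

theorem boxForm_measurable_le {C : ℝ}
    (hd : ∀ m eps, (∀ j, |eps j| ≤ 1) → ∀ f g h, |dform m eps f g h| ≤ C * dnorm m f g h)
    {M : ℕ} (S : Finset ℤ) (eps : ℤ → ℝ) (he : ∀ k, |eps k| ≤ 1) (hM : ∀ k ∈ S, k ≤ (M : ℤ))
    {F0 F1 F2 : ℝ × ℝ → ℝ} (h0 : Measurable F0) (h1 : Measurable F1) (h2 : Measurable F2)
    {B : ℝ} (b0 : ∀ x, |F0 x| ≤ B) (b1 : ∀ x, |F1 x| ≤ B) (b2 : ∀ x, |F2 x| ≤ B) :
    |boxForm S eps M F0 F1 F2| ≤ C * (cubeInt M F0 + cubeInt M F1 + cubeInt M F2) := by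
  have hB0 : 0 ≤ B := le_trans (abs_nonneg _) (b0 0)
  obtain ⟨g0, c0, d0, l0⟩ := exists_continuous_approx (M := M) hB0 h0 b0
  obtain ⟨g1, c1, d1, l1⟩ := exists_continuous_approx (M := M) hB0 h1 b1
  obtain ⟨g2, c2, d2, l2⟩ := exists_continuous_approx (M := M) hB0 h2 b2
  exact le_of_tendsto_of_tendsto'
    (tendsto_boxForm (B := B) hM (fun i => (c0 i).measurable) (fun i => (c1 i).measurable)
      (fun i => (c2 i).measurable) (fun i x _ => d0 i x) (fun i x _ => d1 i x)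
      (fun i x _ => d2 i x) l0 l1 l2).abs
    ((((tendsto_cubeInt (B := B) (fun i => (c0 i).measurable) (fun i x _ => d0 i x) l0).add
      (tendsto_cubeInt (B := B) (fun i => (c1 i).measurable) (fun i x _ => d1 i x) l1)).add
      (tendsto_cubeInt (B := B) (fun i => (c2 i).measurable) (fun i x _ => d2 i x) l2)).const_mul C)
    fun i => boxForm_continuous_le hd S eps he hM (c0 i) (c1 i) (c2 i)

/-! ### The whole quadrant and the product of norms -/

theorem triple_smul (k : ℤ) (n0 n1 n2 : ℕ) (t0 t1 t2 : ℝ) (F0 F1 F2 : ℝ × ℝ → ℝ) :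
    triple k n0 n1 n2 (fun x => t0 * F0 x) (fun x => t1 * F1 x) (fun x => t2 * F2 x)
      = t0 * t1 * t2 * triple k n0 n1 n2 F0 F1 F2 := by
  simp only [triple]
  rw [mul_left_comm (t0 * t1 * t2), ← integral_const_mul (t0 * t1 * t2)]
  refine congrArg (((2:ℝ) ^ k)⁻¹ * ·) ?_
  congr 1
  funext x
  ring

theorem boxForm_smul (S : Finset ℤ) (eps : ℤ → ℝ) (M : ℕ) (t0 t1 t2 : ℝ)
    (F0 F1 F2 : ℝ × ℝ → ℝ) :
    boxForm S eps M (fun x => t0 * F0 x) (fun x => t1 * F1 x) (fun x => t2 * F2 x)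
      = t0 * t1 * t2 * boxForm S eps M F0 F1 F2 := by
  simp only [boxForm, triple_smul, Finset.mul_sum]
  exact Finset.sum_congr rfl fun k _ => Finset.sum_congr rfl fun p _ => by ring

theorem cubeInt_smul (M : ℕ) (t : ℝ) (F : ℝ × ℝ → ℝ) :
    cubeInt M (fun x => t * F x) = |t| ^ 3 * cubeInt M F := by
  simp only [cubeInt, abs_mul, mul_pow, integral_const_mul]

theorem cubeInt_nonneg (M : ℕ) (F : ℝ × ℝ → ℝ) : 0 ≤ cubeInt M F :=
  setIntegral_nonneg (measurableSet_box2 M) fun _ _ => by positivity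

theorem dyForm_eq_boxForm {S : Finset ℤ} {eps : ℤ → ℝ} {M : ℕ} {F0 F1 F2 : ℝ × ℝ → ℝ}
    (hM : ∀ k ∈ S, k ≤ (M : ℤ))
    (hs : ∀ x : ℝ × ℝ, (2:ℝ) ^ M ≤ x.1 ∨ (2:ℝ) ^ M ≤ x.2 → F0 x = 0) :
    dyForm S eps F0 F1 F2 = boxForm S eps M F0 F1 F2 := by
  refine Finset.sum_congr rfl fun k hk => ?_
  congr 1
  refine tsum_eq_sum fun p hp => ?_
  simp only [Finset.mem_product, Finset.mem_range, not_and_or, not_lt] at hp
  have hbig : ∀ n : ℕ, 2 ^ lev M k ≤ n → ∀ x ∈ dyadicIco k n, (2:ℝ) ^ M ≤ x := by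
    intro n hn x hx
    refine le_trans ?_ hx.1
    have h1 : ((2:ℝ) ^ lev M k) ≤ (n : ℝ) := by exact_mod_cast hn
    calc (2:ℝ) ^ M = 2 ^ k * 2 ^ lev M k := by
          rw [← zpow_natCast, ← zpow_natCast (2:ℝ) (lev M k),
            ← zpow_add₀ (by norm_num : (2:ℝ) ≠ 0),
            show k + (lev M k : ℤ) = (M : ℤ) by have := hM k hk; unfold lev; omega]
      _ ≤ 2 ^ k * (n : ℝ) := by gcongr
  rw [triple, setIntegral_eq_zero_of_forall_eq_zero, mul_zero]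
  rintro x ⟨hx1, hx2, -⟩
  have : F0 (x.1, x.2.1) = 0 := by
    rcases hp with h | h
    · exact hs _ (Or.inl (hbig _ h _ hx1))
    · exact hs _ (Or.inr (hbig _ h _ hx2))
  simp [this]

theorem norm3_eq {M : ℕ} {F : ℝ × ℝ → ℝ}
    (hs : ∀ x : ℝ × ℝ, (2:ℝ) ^ M ≤ x.1 ∨ (2:ℝ) ^ M ≤ x.2 → F x = 0) :
    norm3 F = cubeInt M F ^ (1 / 3 : ℝ) := by
  rw [norm3, cubeInt]
  congr 1
  refine setIntegral_eq_of_subset_of_forall_sdiff_eq_zero
    (measurableSet_Ici.prod measurableSet_Ici) (fun x hx => ⟨hx.1.1, hx.2.1⟩) ?_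
  rintro x ⟨⟨h1, h2⟩, hn⟩
  have : F x = 0 := by
    refine hs x ?_
    by_contra hc
    push Not at hc
    exact hn ⟨⟨h1, hc.1⟩, h2, hc.2⟩
  simp [this]

/-- A bound for the finite model gives the bound for the dyadic form. -/
theorem bounded_of_discrete
    (hd : ∃ C, ∀ m eps, (∀ j, |eps j| ≤ 1) → ∀ f g h, |dform m eps f g h| ≤ C * dnorm m f g h) :
    ∃ C, ∀ (S : Finset ℤ) (eps : ℤ → ℝ), (∀ k, |eps k| ≤ 1) → ∀ F0 F1 F2 : ℝ × ℝ → ℝ,
      Measurable F0 → Measurable F1 → Measurable F2 →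
      (∃ B, ∀ x, |F0 x| ≤ B) → (∃ B, ∀ x, |F1 x| ≤ B) → (∃ B, ∀ x, |F2 x| ≤ B) →
      HasCompactSupport F0 → HasCompactSupport F1 → HasCompactSupport F2 →
      |dyForm S eps F0 F1 F2| ≤ C * (norm3 F0 * norm3 F1 * norm3 F2) := by
  obtain ⟨C, hC⟩ := hd
  refine ⟨3 * max C 0, fun S eps he F0 F1 F2 h0 h1 h2 ⟨B0, hb0⟩ ⟨B1, hb1⟩ ⟨B2, hb2⟩
    s0 s1 s2 => ?_⟩
  obtain ⟨R, hR⟩ := ((s0.union s1).union s2).isBounded.exists_norm_le
  obtain ⟨n, hn⟩ := pow_unbounded_of_one_lt R (by norm_num : (1:ℝ) < 2)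
  set M : ℕ := max n (S.sup Int.toNat) with hMdef
  have hM : ∀ k ∈ S, k ≤ (M : ℤ) := fun k hk => by
    have := Finset.le_sup (f := Int.toNat) hk
    omega
  have hRM : R < (2:ℝ) ^ M :=
    lt_of_lt_of_le hn (pow_le_pow_right₀ (by norm_num) (le_max_left _ _))
  have hout : ∀ F : ℝ × ℝ → ℝ, (∀ x ∈ tsupport F, ‖x‖ ≤ R) →
      ∀ x : ℝ × ℝ, (2:ℝ) ^ M ≤ x.1 ∨ (2:ℝ) ^ M ≤ x.2 → F x = 0 := by
    intro F hF x hx
    refine image_eq_zero_of_notMem_tsupport fun hm => ?_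
    have h1 := hF x hm
    have h2 := (abs_le.1 (norm_fst_le x |>.trans h1)).2
    have h3 := (abs_le.1 (norm_snd_le x |>.trans h1)).2
    rcases hx with h | h <;> linarith
  have o0 := hout F0 fun x hx => hR x (Or.inl (Or.inl hx))
  have o1 := hout F1 fun x hx => hR x (Or.inl (Or.inr hx))
  have o2 := hout F2 fun x hx => hR x (Or.inr hx)
  rw [dyForm_eq_boxForm hM o0, norm3_eq o0, norm3_eq o1, norm3_eq o2]
  have hmain : ∀ t0 t1 t2 : ℝ, 0 ≤ t0 → 0 ≤ t1 → 0 ≤ t2 →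
      t0 * t1 * t2 * |boxForm S eps M F0 F1 F2| ≤ max C 0 *
        (t0 ^ 3 * cubeInt M F0 + t1 ^ 3 * cubeInt M F1 + t2 ^ 3 * cubeInt M F2) := by
    intro t0 t1 t2 p0 p1 p2
    have hb : ∀ (t : ℝ) (F : ℝ × ℝ → ℝ) (B : ℝ), 0 ≤ t → (∀ x, |F x| ≤ B) →
        ∀ x, |t * F x| ≤ t * |B| := fun t F B ht hB x => by
      rw [abs_mul, abs_of_nonneg ht]
      exact mul_le_mul_of_nonneg_left ((hB x).trans (le_abs_self B)) ht
    have q0 : 0 ≤ t0 * |B0| := by positivity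
    have q1 : 0 ≤ t1 * |B1| := by positivity
    have q2 : 0 ≤ t2 * |B2| := by positivity
    have := boxForm_measurable_le hC S eps he hM (h0.const_mul t0) (h1.const_mul t1)
      (h2.const_mul t2) (B := t0 * |B0| + t1 * |B1| + t2 * |B2|)
      (fun x => (hb t0 F0 B0 p0 hb0 x).trans (by linarith))
      (fun x => (hb t1 F1 B1 p1 hb1 x).trans (by linarith))
      (fun x => (hb t2 F2 B2 p2 hb2 x).trans (by linarith))
    rw [boxForm_smul, abs_mul, cubeInt_smul, cubeInt_smul, cubeInt_smul,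
      abs_of_nonneg (by positivity : 0 ≤ t0 * t1 * t2), abs_of_nonneg p0, abs_of_nonneg p1,
      abs_of_nonneg p2] at this
    refine this.trans (mul_le_mul_of_nonneg_right (le_max_left _ _) ?_)
    have := cubeInt_nonneg M F0
    have := cubeInt_nonneg M F1
    have := cubeInt_nonneg M F2
    positivity
  set a0 := cubeInt M F0
  set a1 := cubeInt M F1
  set a2 := cubeInt M F2
  have n0 : 0 ≤ a0 := cubeInt_nonneg M F0
  have n1 : 0 ≤ a1 := cubeInt_nonneg M F1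
  have n2 : 0 ≤ a2 := cubeInt_nonneg M F2
  have hdel : ∀ δ : ℝ, 0 < δ → |boxForm S eps M F0 F1 F2| ≤ 3 * max C 0 *
      ((a0 + δ) ^ (1 / 3 : ℝ) * (a1 + δ) ^ (1 / 3 : ℝ) * (a2 + δ) ^ (1 / 3 : ℝ)) := by
    intro δ hδ
    have hpos : ∀ a : ℝ, 0 ≤ a → 0 < (a + δ) ^ (1 / 3 : ℝ) := fun a ha =>
      Real.rpow_pos_of_pos (by linarith) _
    have hcube : ∀ a : ℝ, 0 ≤ a → (((a + δ) ^ (1 / 3 : ℝ))⁻¹) ^ 3 * a ≤ 1 := fun a ha => by
      rw [inv_pow, ← Real.rpow_natCast ((a + δ) ^ (1 / 3 : ℝ)), ← Real.rpow_mul (by linarith)]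
      norm_num
      rw [inv_mul_le_iff₀ (by linarith)]
      linarith
    set u0 := (a0 + δ) ^ (1 / 3 : ℝ) with hu0
    set u1 := (a1 + δ) ^ (1 / 3 : ℝ) with hu1
    set u2 := (a2 + δ) ^ (1 / 3 : ℝ) with hu2
    have w0 : 0 < u0 := hpos a0 n0
    have w1 : 0 < u1 := hpos a1 n1
    have w2 : 0 < u2 := hpos a2 n2
    have h3 := hmain u0⁻¹ u1⁻¹ u2⁻¹ (by positivity) (by positivity) (by positivity)
    have c0 : u0⁻¹ ^ 3 * a0 ≤ 1 := hcube a0 n0
    have c1 : u1⁻¹ ^ 3 * a1 ≤ 1 := hcube a1 n1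
    have c2 : u2⁻¹ ^ 3 * a2 ≤ 1 := hcube a2 n2
    have h4 : max C 0 * (u0⁻¹ ^ 3 * a0 + u1⁻¹ ^ 3 * a1 + u2⁻¹ ^ 3 * a2) ≤ 3 * max C 0 := by
      have := mul_le_mul_of_nonneg_left (by linarith : u0⁻¹ ^ 3 * a0 + u1⁻¹ ^ 3 * a1
        + u2⁻¹ ^ 3 * a2 ≤ 3) (le_max_right C 0)
      linarith
    have h5 : u0⁻¹ * u1⁻¹ * u2⁻¹ * |boxForm S eps M F0 F1 F2| ≤ 3 * max C 0 := h3.trans h4
    have h6 : (u0 * u1 * u2)⁻¹ * |boxForm S eps M F0 F1 F2| ≤ 3 * max C 0 := by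
      rwa [mul_inv, mul_inv]
    rw [inv_mul_le_iff₀ (by positivity)] at h6
    linarith
  have ht : Tendsto (fun δ : ℝ => 3 * max C 0 *
      ((a0 + δ) ^ (1 / 3 : ℝ) * (a1 + δ) ^ (1 / 3 : ℝ) * (a2 + δ) ^ (1 / 3 : ℝ))) (𝓝[>] 0)
      (𝓝 (3 * max C 0 * (a0 ^ (1 / 3 : ℝ) * a1 ^ (1 / 3 : ℝ) * a2 ^ (1 / 3 : ℝ)))) := by
    have hc : Continuous fun δ : ℝ => 3 * max C 0 *
        ((a0 + δ) ^ (1 / 3 : ℝ) * (a1 + δ) ^ (1 / 3 : ℝ) * (a2 + δ) ^ (1 / 3 : ℝ)) := by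
      have : ∀ a : ℝ, Continuous fun δ : ℝ => (a + δ) ^ (1 / 3 : ℝ) := fun a =>
        (Real.continuous_rpow_const (by norm_num)).comp (continuous_const.add continuous_id)
      exact continuous_const.mul (((this a0).mul (this a1)).mul (this a2))
    have := (hc.tendsto 0).mono_left (nhdsWithin_le_nhds (s := Ioi (0:ℝ)))
    simpa using this
  exact ge_of_tendsto ht (eventually_nhdsWithin_of_forall fun δ hδ => hdel δ hδ)

end P075
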