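import Vale.Agent.P075.Gain

/-!
P075: the inequality at one node of the tree.
-/

set_option linter.unusedSectionVars false

namespace P075

open Matrix Filter Topology

variable {ι : Type*} [Fintype ι] [DecidableEq ι]

/-- The sign matrix separating the two halves. -/
def halves : Matrix (ι ⊕ ι) (ι ⊕ ι) ℝ := fromBlocks 1 0 0 (-1)

/-- The matrix `AᵀA + BBᵀ` on the index shared by `A` and `B`. -/
def stack {κ : Type*} [Fintype κ] (A B : Matrix κ κ ℝ) : Matrix κ κ ℝ := Aᵀ * A + B * Bᵀ

theorem stack_psd {κ : Type*} [Fintype κ] (A B : Matrix κ κ ℝ) : (stack A B).PosSemidef :=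
  (psd_gram A).add (psd_gram' B)

/-- The potential of a node. -/
noncomputable def psi {κ : Type*} [Fintype κ] [DecidableEq κ] (A B C : Matrix κ κ ℝ) : ℝ :=
  phi (stack A B) + phi (stack B C) + phi (stack C A)

theorem psi_nonneg {κ : Type*} [Fintype κ] [DecidableEq κ] (A B C : Matrix κ κ ℝ) :
    0 ≤ psi A B C :=
  add_nonneg (add_nonneg (phi_nonneg (stack_psd A B)) (phi_nonneg (stack_psd B C)))
    (phi_nonneg (stack_psd C A))

/-- The term of a node. -/
def term (A B C : Matrix (ι ⊕ ι) (ι ⊕ ι) ℝ) : ℝ :=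
  (A * halves * B * halves * C * halves).trace

theorem halves_mul_self : (halves : Matrix (ι ⊕ ι) (ι ⊕ ι) ℝ) * halves = 1 := by
  simp [halves, fromBlocks_multiply, fromBlocks_one]

theorem halves_symm : (halves : Matrix (ι ⊕ ι) (ι ⊕ ι) ℝ)ᵀ = halves := by
  simp [halves, fromBlocks_transpose]

theorem term_rotate (A B C : Matrix (ι ⊕ ι) (ι ⊕ ι) ℝ) : term A B C = term B C A := by
  unfold term
  rw [show A * halves * B * halves * C * halves = A * halves * (B * halves * C * halves) by
    simp only [mul_assoc], Matrix.trace_mul_comm]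
  simp only [mul_assoc]

theorem flip_psd {S : Matrix (ι ⊕ ι) (ι ⊕ ι) ℝ} (hS : S.PosSemidef) :
    (halves * S * halves).PosSemidef := by
  simpa [halves_symm] using psd_congr hS halves

theorem res_flip {S : Matrix (ι ⊕ ι) (ι ⊕ ι) ℝ} (hS : S.PosSemidef) {s : ℝ} (hs : 0 < s) :
    res s (halves * S * halves) = halves * res s S * halves := by
  unfold res
  refine Matrix.inv_eq_left_inv ?_
  have h : halves * S * halves + s • 1 = halves * (S + s • 1) * halves := by
    rw [mul_add, add_mul, mul_smul_comm, mul_one, smul_mul_assoc, halves_mul_self]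
  have a : (S + s • 1)⁻¹ * (S + s • 1) = 1 := Matrix.nonsing_inv_mul _
    ((Matrix.isUnit_iff_isUnit_det _).mp (shift_posDef hS hs).isUnit)
  rw [h]
  calc halves * (S + s • 1)⁻¹ * halves * (halves * (S + s • 1) * halves)
      = halves * (S + s • 1)⁻¹ * (halves * halves) * (S + s • 1) * halves := by
        simp only [mul_assoc]
    _ = halves * ((S + s • 1)⁻¹ * (S + s • 1)) * halves := by
        rw [halves_mul_self, mul_one]; simp only [mul_assoc]
    _ = 1 := by rw [a, mul_one, halves_mul_self]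

theorem prj_flip {S : Matrix (ι ⊕ ι) (ι ⊕ ι) ℝ} (hS : S.PosSemidef) {s : ℝ} (hs : 0 < s) :
    prj s (halves * S * halves) = halves * prj s S * halves := by
  rw [prj, res_flip hS hs]
  calc halves * S * halves * (halves * res s S * halves)
      = halves * S * (halves * halves) * res s S * halves := by simp only [mul_assoc]
    _ = _ := by rw [halves_mul_self, mul_one, prj]; simp only [mul_assoc]

theorem phi_flip {S : Matrix (ι ⊕ ι) (ι ⊕ ι) ℝ} (hS : S.PosSemidef) :
    phi (halves * S * halves) = phi S := by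
  refine tsum_congr fun l => ?_
  have h : fsq (scl l) (halves * S * halves) = halves * fsq (scl l) S * halves := by
    rw [fsq, prj_flip hS (scl_pos l), fsq, mul_sub, sub_mul, mul_smul_comm, smul_mul_assoc]
  rw [phiTerm, phiTerm, h, Matrix.trace_mul_cycle, halves_mul_self, one_mul]

theorem phi_fromBlocks {X Y : Matrix ι ι ℝ} (hX : X.PosSemidef) (hY : Y.PosSemidef) :
    phi (fromBlocks X 0 0 Y) = phi X + phi Y := by
  unfold phi
  rw [← (summable_phiTerm hX).tsum_add (summable_phiTerm hY)]
  refine tsum_congr fun l => ?_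
  have hres : res (scl l) (fromBlocks X 0 0 Y)
      = fromBlocks (res (scl l) X) 0 0 (res (scl l) Y) := by
    unfold res
    refine Matrix.inv_eq_left_inv ?_
    have a : (X + scl l • 1)⁻¹ * (X + scl l • 1) = 1 := Matrix.nonsing_inv_mul _
      ((Matrix.isUnit_iff_isUnit_det _).mp (shift_posDef hX (scl_pos l)).isUnit)
    have b : (Y + scl l • 1)⁻¹ * (Y + scl l • 1) = 1 := Matrix.nonsing_inv_mul _
      ((Matrix.isUnit_iff_isUnit_det _).mp (shift_posDef hY (scl_pos l)).isUnit)
    rw [← fromBlocks_one, fromBlocks_smul, fromBlocks_add, fromBlocks_multiply]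
    simp [a, b, fromBlocks_one]
  have hfsq : fsq (scl l) (fromBlocks X 0 0 Y)
      = fromBlocks (fsq (scl l) X) 0 0 (fsq (scl l) Y) := by
    simp only [fsq, prj, hres, fromBlocks_multiply, fromBlocks_smul, sub_eq_add_neg,
      fromBlocks_neg, fromBlocks_add]
    simp
  simp [phiTerm, hfsq, trace, Fintype.sum_sum_type, mul_add]

/-- The gain of one pair: the four children against the parent. -/
theorem pair_gain (A B : Matrix (ι ⊕ ι) (ι ⊕ ι) ℝ) :
    phi (stack A B + halves * stack A B * halves) - phi (stack A B)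
        - phi (halves * stack A B * halves)
      ≤ 2 * (2 * (phi (stack A.toBlocks₁₁ B.toBlocks₁₁) + phi (stack A.toBlocks₂₁ B.toBlocks₁₂)
          + (phi (stack A.toBlocks₁₂ B.toBlocks₂₂) + phi (stack A.toBlocks₂₂ B.toBlocks₂₁)))
        - phi (stack A B)) := by
  set a := A.toBlocks₁₁
  set b := A.toBlocks₁₂
  set c := A.toBlocks₂₁
  set d := A.toBlocks₂₂
  set e := B.toBlocks₁₁
  set f := B.toBlocks₁₂
  set g := B.toBlocks₂₁
  set h := B.toBlocks₂₂
  have hA : A = fromBlocks a b c d := (fromBlocks_toBlocks A).symm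
  have hB : B = fromBlocks e f g h := (fromBlocks_toBlocks B).symm
  have hsum : stack A B + halves * stack A B * halves
      = (2:ℝ) • fromBlocks (stack a e + stack c f) 0 0 (stack b h + stack d g) := by
    rw [hA, hB]
    simp only [stack, halves, fromBlocks_transpose, fromBlocks_multiply, fromBlocks_add,
      fromBlocks_smul, Matrix.one_mul, Matrix.mul_one, Matrix.zero_mul, Matrix.mul_zero,
      add_zero, zero_add, Matrix.neg_mul, Matrix.mul_neg, neg_neg, smul_zero, two_smul]
    congr 1 <;> abel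
  rw [phi_flip (stack_psd A B), hsum,
    phi_two_smul (by
      refine PosSemidef.of_dotProduct_mulVec_nonneg ?_ ?_
      · exact IsHermitian.fromBlocks ((stack_psd a e).add (stack_psd c f)).isHermitian
          (by simp) ((stack_psd b h).add (stack_psd d g)).isHermitian
      · intro x
        rw [show x = Sum.elim (x ∘ Sum.inl) (x ∘ Sum.inr) by ext (i | i) <;> rfl]
        simp only [fromBlocks_mulVec, star_trivial, Matrix.zero_mulVec, add_zero, zero_add,
          sumElim_dotProduct_sumElim, Sum.elim_comp_inl, Sum.elim_comp_inr]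
        refine add_nonneg ?_ ?_
        · simpa using ((stack_psd a e).add (stack_psd c f)).dotProduct_mulVec_nonneg (x ∘ Sum.inl)
        · simpa using ((stack_psd b h).add (stack_psd d g)).dotProduct_mulVec_nonneg (x ∘ Sum.inr)),
    phi_fromBlocks ((stack_psd a e).add (stack_psd c f)) ((stack_psd b h).add (stack_psd d g))]
  have h1 := phi_convex (stack_psd a e) (stack_psd c f)
  have h2 := phi_convex (stack_psd b h) (stack_psd d g)
  linarith

/-- The clipped matrix. -/
noncomputable def clip {κ : Type*} [Fintype κ] [DecidableEq κ] (s : ℝ) (A : Matrix κ κ ℝ) :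
    Matrix κ κ ℝ :=
  s • (A * res s (Aᵀ * A))

section Clip

variable {κ : Type*} [Fintype κ] [DecidableEq κ] (A : Matrix κ κ ℝ) {s t : ℝ}

theorem clip_eq (hs : 0 < s) : clip s A = s • (res s (A * Aᵀ) * A) := by
  have a : res s (A * Aᵀ) * (A * Aᵀ + s • 1) = 1 := Matrix.nonsing_inv_mul _
    ((Matrix.isUnit_iff_isUnit_det _).mp (shift_posDef (psd_gram' A) hs).isUnit)
  have b : (Aᵀ * A + s • 1) * res s (Aᵀ * A) = 1 := Matrix.mul_nonsing_inv _
    ((Matrix.isUnit_iff_isUnit_det _).mp (shift_posDef (psd_gram A) hs).isUnit)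
  have h : A * (Aᵀ * A + s • 1) = (A * Aᵀ + s • 1) * A := by
    simp [mul_add, add_mul, mul_assoc]
  rw [clip]
  congr 1
  calc A * res s (Aᵀ * A)
      = res s (A * Aᵀ) * ((A * Aᵀ + s • 1) * A) * res s (Aᵀ * A) := by
        rw [← mul_assoc (res s (A * Aᵀ)), a, one_mul]
    _ = res s (A * Aᵀ) * A * ((Aᵀ * A + s • 1) * res s (Aᵀ * A)) := by
        rw [← h]; simp only [mul_assoc]
    _ = _ := by rw [b, mul_one]

theorem clip_transpose (hs : 0 < s) : (clip s A)ᵀ = clip s Aᵀ := by
  rw [clip_eq A hs, clip, transpose_smul, transpose_mul, transpose_transpose,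
    res_symm (psd_gram' A) hs]

theorem clip_mul_transpose_le (hs : 0 < s) :
    (s • prj s (A * Aᵀ) - clip s A * (clip s A)ᵀ).PosSemidef := by
  have hH := psd_gram' A
  have e : s • prj s (A * Aᵀ) - clip s A * (clip s A)ᵀ
      = s • ((prj s (A * Aᵀ))ᵀ * prj s (A * Aᵀ)) := by
    rw [clip_eq A hs, transpose_smul, transpose_mul, res_symm hH hs, prj_symm hH hs,
      smul_mul_smul_comm, show res s (A * Aᵀ) * A * (Aᵀ * res s (A * Aᵀ))
        = res s (A * Aᵀ) * prj s (A * Aᵀ) by simp only [prj, mul_assoc], mul_smul, ← smul_sub]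
    congr 1
    rw [← smul_mul_assoc]
    conv_rhs => arg 1; rw [prj_eq hH hs]
    rw [sub_mul, one_mul]
  rw [e]
  exact (psd_gram _).smul hs.le

theorem clip_transpose_mul_le (hs : 0 < s) :
    (s • prj s (Aᵀ * A) - (clip s A)ᵀ * clip s A).PosSemidef := by
  have := clip_mul_transpose_le Aᵀ hs
  rwa [← clip_transpose A hs, transpose_transpose, transpose_transpose] at this

theorem clip_diff (hs : 0 < s) :
    clip (2 * s) A - clip s A = clip s A * prj (2 * s) (Aᵀ * A) := by
  have ht : 0 < 2 * s := by linarith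
  have hG := psd_gram A
  have e : (2 * s) • res (2 * s) (Aᵀ * A) - s • res s (Aᵀ * A)
      = s • (res s (Aᵀ * A) * (Aᵀ * A) * res (2 * s) (Aᵀ * A)) := by
    have h := prj_sub_prj hG hs ht
    rw [show 2 * s - s = s by ring] at h
    rw [← h, prj_eq hG hs, prj_eq hG ht, sub_sub_sub_cancel_left]
  rw [clip, clip, ← mul_smul_comm, ← mul_smul_comm, ← mul_sub, e]
  simp only [prj, mul_smul_comm, smul_mul_assoc, mul_assoc]

/-- Bounds valid for both neighbouring scales. -/
theorem clip_bound {S : Matrix κ κ ℝ} (hS : S.PosSemidef)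
    (hle : (S - A * Aᵀ).PosSemidef) (hs : 0 < s) (hst : s ≤ t) (ht : t ≤ 2 * s) :
    ((2 * s) • prj s S - clip t A * (clip t A)ᵀ).PosSemidef := by
  have htp : 0 < t := lt_of_lt_of_le hs hst
  have hH := psd_gram' A
  have h1 := clip_mul_transpose_le A htp
  have h2 := (prj_anti hH hs hst).smul htp.le
  have h3 := (prj_mono hH hS hs hle).smul htp.le
  have h4 := (prj_psd hS hs).smul (show (0:ℝ) ≤ 2 * s - t by linarith)
  have := ((h1.add h2).add h3).add h4
  convert this using 1
  simp only [smul_sub, sub_smul]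
  abel

theorem clip_bound' {S : Matrix κ κ ℝ} (hS : S.PosSemidef)
    (hle : (S - Aᵀ * A).PosSemidef) (hs : 0 < s) (hst : s ≤ t) (ht : t ≤ 2 * s) :
    ((2 * s) • prj s S - (clip t A)ᵀ * clip t A).PosSemidef := by
  have := clip_bound Aᵀ hS (by rwa [transpose_transpose]) hs hst ht
  rwa [← clip_transpose A (lt_of_lt_of_le hs hst), transpose_transpose] at this

end Clip

theorem two_abs_trace_mul_le {κ : Type*} [Fintype κ] (M N : Matrix κ κ ℝ) {c : ℝ} (hc : 0 < c) :
    2 * |(M * N).trace| ≤ c * (M * Mᵀ).trace + c⁻¹ * (Nᵀ * N).trace := by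
  have e : ∀ ε : ℝ, ((c • Mᵀ + ε • N)ᵀ * (c • Mᵀ + ε • N)).trace
      = c ^ 2 * (M * Mᵀ).trace + 2 * c * ε * (M * N).trace + ε ^ 2 * (Nᵀ * N).trace := by
    intro ε
    have h : (Nᵀ * Mᵀ).trace = (M * N).trace := by rw [← transpose_mul, trace_transpose]
    simp only [transpose_add, transpose_smul, transpose_transpose, Matrix.add_mul, Matrix.mul_add,
      Matrix.smul_mul, Matrix.mul_smul, trace_add, trace_smul, smul_eq_mul, h]
    ring
  have h1 := (psd_gram (c • Mᵀ + (1:ℝ) • N)).trace_nonneg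
  have h2 := (psd_gram (c • Mᵀ + (-1:ℝ) • N)).trace_nonneg
  rw [e] at h1 h2
  have h3 : |(M * N).trace| * (2 * c) ≤ c ^ 2 * (M * Mᵀ).trace + (Nᵀ * N).trace := by
    rcases abs_cases ((M * N).trace) with ⟨ha, _⟩ | ⟨ha, _⟩ <;> rw [ha] <;> linarith
  have : c * (M * Mᵀ).trace + c⁻¹ * (Nᵀ * N).trace
      = (c ^ 2 * (M * Mᵀ).trace + (Nᵀ * N).trace) / c := by field_simp
  rw [this, le_div_iff₀ hc]
  linarith

/-- One telescoping piece. -/
theorem piece_le (A B C X Y : Matrix (ι ⊕ ι) (ι ⊕ ι) ℝ) (k : ℤ)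
    (hX : ((2 * scl k) • prj (scl k) (stack A B) - X * Xᵀ).PosSemidef)
    (hY : ((2 * scl k) • prj (scl k) (stack C A) - Yᵀ * Y).PosSemidef) :
    |term (clip (2 * scl k) A - clip (scl k) A) X Y|
      ≤ wt k ^ 3 * jay (scl k) (stack A B) (halves * stack A B * halves)
        + wt k ^ 3 * jay (scl k) (stack C A) (halves * stack C A * halves) := by
  have hs := scl_pos k
  have ht : 0 < 2 * scl k := by linarith
  set s := scl k with hsdef
  set U : Matrix (ι ⊕ ι) (ι ⊕ ι) ℝ := halves with hU
  set K := prj (2 * s) (Aᵀ * A) with hK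
  set L := clip s A with hL
  have hG := psd_gram A
  have hS1 := stack_psd A B
  have hS3 := stack_psd C A
  have hUU : U * U = 1 := halves_mul_self
  have hUt : Uᵀ = U := halves_symm
  have e : term (clip (2 * s) A - clip s A) X Y = ((K * U * X) * (U * Y * U * L)).trace := by
    rw [clip_diff A hs, term, mul_assoc L, mul_assoc L, mul_assoc L, mul_assoc L, mul_assoc L,
      Matrix.trace_mul_comm]
    simp only [mul_assoc, hK, hL, hU]
  have hMM : (K * U * X * (K * U * X)ᵀ).trace ≤ 2 * s * jay s (stack A B) (U * stack A B * U) := by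
    have e1 : (K * U * X * (K * U * X)ᵀ).trace = ((K * K) * (U * (X * Xᵀ) * U)).trace := by
      rw [transpose_mul, transpose_mul, hUt, prj_symm hG ht, ← hK]
      calc (K * U * X * (Xᵀ * (U * K))).trace = (K * U * X * Xᵀ * U * K).trace := by
            simp only [mul_assoc]
        _ = (K * (K * U * X * Xᵀ * U)).trace := by rw [Matrix.trace_mul_comm]
        _ = _ := by simp only [mul_assoc]
    rw [e1]
    have h1 : (prj s (stack A B) - K * K).PosSemidef := by
      have := ((prj_mono hG hS1 hs (by simpa [stack] using psd_gram' B)).add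
        (prj_anti hG hs (show s ≤ 2 * s by linarith))).add (prj_sub_sq_psd hG ht)
      convert this using 1
      rw [hK]; abel
    have hXX : (U * (X * Xᵀ) * U).PosSemidef := by
      simpa [hUt] using psd_congr (psd_gram' X) U
    refine (trace_mul_mono_left h1 hXX).trans ?_
    have h2 : (U * ((2 * s) • prj s (stack A B)) * U - U * (X * Xᵀ) * U).PosSemidef := by
      have := psd_congr hX U
      rw [hUt, mul_sub, sub_mul] at this
      exact this
    refine (trace_mul_mono_right (prj_psd hS1 hs) h2).trans (le_of_eq ?_)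
    rw [jay, hU, prj_flip hS1 hs, mul_smul_comm, smul_mul_assoc, mul_smul_comm, trace_smul,
      smul_eq_mul]
  have hNN : ((U * Y * U * L)ᵀ * (U * Y * U * L)).trace
      ≤ s * (2 * s * jay s (stack C A) (U * stack C A * U)) := by
    have e1 : ((U * Y * U * L)ᵀ * (U * Y * U * L)).trace
        = ((L * Lᵀ) * (U * (Yᵀ * Y) * U)).trace := by
      have : (U * Y * U * L)ᵀ * (U * Y * U * L) = Lᵀ * (U * (Yᵀ * Y) * U) * L := by
        rw [transpose_mul, transpose_mul, transpose_mul, hUt]
        calc Lᵀ * (U * (Yᵀ * U)) * (U * Y * U * L)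
            = Lᵀ * U * Yᵀ * (U * U) * Y * U * L := by simp only [mul_assoc]
          _ = _ := by rw [hUU, mul_one]; simp only [mul_assoc]
      rw [this, Matrix.trace_mul_cycle]
    rw [e1]
    have h1 : (s • prj s (stack C A) - L * Lᵀ).PosSemidef := by
      have := (clip_mul_transpose_le A hs).add
        ((prj_mono (psd_gram' A) hS3 hs (by simpa [stack] using psd_gram C)).smul hs.le)
      convert this using 1
      rw [smul_sub, hL]; abel
    have hYY : (U * (Yᵀ * Y) * U).PosSemidef := by
      simpa [hUt] using psd_congr (psd_gram Y) U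
    refine (trace_mul_mono_left h1 hYY).trans ?_
    rw [smul_mul_assoc, trace_smul, smul_eq_mul]
    refine mul_le_mul_of_nonneg_left ?_ hs.le
    have h2 : (U * ((2 * s) • prj s (stack C A)) * U - U * (Yᵀ * Y) * U).PosSemidef := by
      have := psd_congr hY U
      rw [hUt, mul_sub, sub_mul] at this
      exact this
    refine (trace_mul_mono_right (prj_psd hS3 hs) h2).trans (le_of_eq ?_)
    rw [jay, hU, prj_flip hS3 hs, mul_smul_comm, smul_mul_assoc, mul_smul_comm, trace_smul,
      smul_eq_mul]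
  have hw := wt_pos k
  have hsw : s = wt k ^ 2 := (wt_sq k).symm
  have hamgm := two_abs_trace_mul_le (K * U * X) (U * Y * U * L) hw
  rw [e]
  have a1 := mul_le_mul_of_nonneg_left hMM hw.le
  have a2 := mul_le_mul_of_nonneg_left hNN (inv_pos.mpr hw).le
  have e2 : wt k * (2 * s * jay s (stack A B) (U * stack A B * U))
      = 2 * (wt k ^ 3 * jay s (stack A B) (U * stack A B * U)) := by
    linear_combination (2 * wt k * jay s (stack A B) (U * stack A B * U)) * hsw
  have e3 : (wt k)⁻¹ * (s * (2 * s * jay s (stack C A) (U * stack C A * U)))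
      = 2 * (wt k ^ 3 * jay s (stack C A) (U * stack C A * U)) := by
    have hss : s * s = wt k ^ 3 * wt k := by rw [hsw]; ring
    field_simp
    linear_combination (jay s (stack C A) (U * stack C A * U)) * hss
  linarith

theorem term_clip_step (A B C : Matrix (ι ⊕ ι) (ι ⊕ ι) ℝ) (k : ℤ) :
    |term (clip (scl (k + 1)) A) (clip (scl (k + 1)) B) (clip (scl (k + 1)) C)
        - term (clip (scl k) A) (clip (scl k) B) (clip (scl k) C)|
      ≤ 2 * (wt k ^ 3 * jay (scl k) (stack A B) (halves * stack A B * halves)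
        + wt k ^ 3 * jay (scl k) (stack B C) (halves * stack B C * halves)
        + wt k ^ 3 * jay (scl k) (stack C A) (halves * stack C A * halves)) := by
  rw [scl_succ]
  have hs := scl_pos k
  set s := scl k
  have hst : s ≤ 2 * s := by linarith
  have bL : ∀ P Q : Matrix (ι ⊕ ι) (ι ⊕ ι) ℝ, ∀ t, s ≤ t → t ≤ 2 * s →
      ((2 * s) • prj s (stack P Q) - clip t Q * (clip t Q)ᵀ).PosSemidef := fun P Q t h1 h2 =>
    clip_bound Q (stack_psd P Q) (by simpa [stack] using psd_gram P) hs h1 h2
  have bR : ∀ P Q : Matrix (ι ⊕ ι) (ι ⊕ ι) ℝ, ∀ t, s ≤ t → t ≤ 2 * s →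
      ((2 * s) • prj s (stack P Q) - (clip t P)ᵀ * clip t P).PosSemidef := fun P Q t h1 h2 =>
    clip_bound' P (stack_psd P Q) (by simpa [stack] using psd_gram' Q) hs h1 h2
  have p1 := piece_le A B C (clip (2 * s) B) (clip (2 * s) C) k
    (bL A B _ hst le_rfl) (bR C A _ hst le_rfl)
  have p2 := piece_le B C A (clip (2 * s) C) (clip s A) k
    (bL B C _ hst le_rfl) (bR A B _ le_rfl hst)
  have p3 := piece_le C A B (clip s A) (clip s B) k
    (bL C A _ le_rfl hst) (bR B C _ le_rfl hst)
  have e : term (clip (2 * s) A) (clip (2 * s) B) (clip (2 * s) C)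
      - term (clip s A) (clip s B) (clip s C)
      = term (clip (2 * s) A - clip s A) (clip (2 * s) B) (clip (2 * s) C)
        + term (clip (2 * s) B - clip s B) (clip (2 * s) C) (clip s A)
        + term (clip (2 * s) C - clip s C) (clip s A) (clip s B) := by
    rw [← term_rotate (clip s A) (clip (2 * s) B - clip s B) (clip (2 * s) C),
      term_rotate (clip (2 * s) C - clip s C) (clip s A) (clip s B)]
    simp only [term, sub_mul, mul_sub, trace_sub]
    ring
  rw [e]
  refine (abs_add_three _ _ _).trans ?_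
  linarith

theorem abs_entry_sq_le {κ : Type*} [Fintype κ] (M : Matrix κ κ ℝ) (i j : κ) :
    M i j ^ 2 ≤ (Mᵀ * M).trace := by
  rw [trace]
  refine le_trans ?_ (Finset.single_le_sum (fun x _ => ?_) (Finset.mem_univ j))
  · simp only [diag, mul_apply, transpose_apply]
    rw [sq]
    exact Finset.single_le_sum (f := fun x => M x j * M x j) (fun x _ => mul_self_nonneg _)
      (Finset.mem_univ i)
  · simp only [diag, mul_apply, transpose_apply]
    exact Finset.sum_nonneg fun y _ => mul_self_nonneg _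

theorem tendsto_of_trace {κ : Type*} [Fintype κ] {α : Type*} {l : Filter α}
    {M : α → Matrix κ κ ℝ} {L : Matrix κ κ ℝ} {b : α → ℝ}
    (hb : ∀ n, ((M n - L)ᵀ * (M n - L)).trace ≤ b n) (h0 : Tendsto b l (𝓝 0)) :
    Tendsto M l (𝓝 L) := by
  refine tendsto_pi_nhds.2 fun i => tendsto_pi_nhds.2 fun j => ?_
  refine tendsto_iff_norm_sub_tendsto_zero.2 ?_
  have hs : Tendsto (fun n => Real.sqrt (b n)) l (𝓝 0) := by
    simpa [Function.comp_def] using (Real.continuous_sqrt.tendsto 0).comp h0
  refine squeeze_zero (fun n => norm_nonneg _) (fun n => ?_) hs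
  rw [Real.norm_eq_abs]
  refine Real.abs_le_sqrt ?_
  calc (M n i j - L i j) ^ 2 = (M n - L) i j ^ 2 := by rw [Matrix.sub_apply]
    _ ≤ _ := abs_entry_sq_le _ i j
    _ ≤ _ := hb n

theorem clip_tendsto_self (A : Matrix ι ι ℝ) :
    Tendsto (fun n : ℕ => clip (scl n) A) atTop (𝓝 A) := by
  have hG := psd_gram A
  refine tendsto_of_trace (b := fun n : ℕ => ((Aᵀ * A) * (Aᵀ * A)).trace * ((2:ℝ)⁻¹) ^ n) ?_ ?_
  · intro n
    have hs := scl_pos (n : ℤ)
    have e : clip (scl n) A - A = -(A * prj (scl n) (Aᵀ * A)) := by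
      rw [clip, prj_eq hG hs, mul_sub, mul_one, mul_smul_comm]; abel
    rw [e, transpose_neg, Matrix.neg_mul, Matrix.mul_neg, neg_neg, transpose_mul, prj_symm hG hs,
      show prj (scl n) (Aᵀ * A) * Aᵀ * (A * prj (scl n) (Aᵀ * A))
        = prj (scl n) (Aᵀ * A) * (Aᵀ * A) * prj (scl n) (Aᵀ * A) by simp only [mul_assoc],
      Matrix.trace_mul_cycle, Matrix.trace_mul_comm]
    have h1 := trace_mul_mono_right hG (prj_sub_sq_psd hG hs)
    have h2 := trace_mul_mono_right hG (fsq_psd hG hs)
    rw [mul_smul_comm, trace_smul, smul_eq_mul] at h2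
    have hscl : scl (n : ℤ) = 2 ^ n := zpow_natCast _ n
    rw [inv_pow, ← hscl, ← div_eq_mul_inv, le_div_iff₀ hs]
    nlinarith
  · simpa using (tendsto_pow_atTop_nhds_zero_of_lt_one (by norm_num : (0:ℝ) ≤ 2⁻¹)
      (by norm_num)).const_mul ((Aᵀ * A) * (Aᵀ * A)).trace

theorem clip_tendsto_zero (A : Matrix ι ι ℝ) :
    Tendsto (fun n : ℕ => clip (scl (-n)) A) atTop (𝓝 0) := by
  have hG := psd_gram A
  refine tendsto_of_trace (b := fun n : ℕ => (Fintype.card ι : ℝ) * ((2:ℝ)⁻¹) ^ n) ?_ ?_
  · intro n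
    have hs := scl_pos (-(n : ℤ))
    rw [sub_zero]
    have h1 := (clip_transpose_mul_le A hs).trace_nonneg
    have h2 := (one_sub_prj_psd hG hs).trace_nonneg
    rw [trace_sub, trace_smul, smul_eq_mul] at h1
    rw [trace_sub, trace_one] at h2
    have hscl : scl (-(n : ℤ)) = (2⁻¹ : ℝ) ^ n := by
      rw [scl, _root_.zpow_neg, zpow_natCast, inv_pow]
    rw [← hscl, mul_comm]
    nlinarith
  · simpa using (tendsto_pow_atTop_nhds_zero_of_lt_one (by norm_num : (0:ℝ) ≤ 2⁻¹)
      (by norm_num)).const_mul (Fintype.card ι : ℝ)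

theorem continuous_term : Continuous fun p : Matrix (ι ⊕ ι) (ι ⊕ ι) ℝ
    × Matrix (ι ⊕ ι) (ι ⊕ ι) ℝ × Matrix (ι ⊕ ι) (ι ⊕ ι) ℝ => term p.1 p.2.1 p.2.2 := by
  unfold term
  fun_prop

/-- The telescope over the scales `2 ^ i` with `-n ≤ i < n`. -/
theorem telescope_le (A B C : Matrix (ι ⊕ ι) (ι ⊕ ι) ℝ) (n : ℕ) :
    |term (clip (scl n) A) (clip (scl n) B) (clip (scl n) C)
        - term (clip (scl (-n)) A) (clip (scl (-n)) B) (clip (scl (-n)) C)|
      ≤ 6 * ((phi (stack A B + halves * stack A B * halves) - phi (stack A B)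
            - phi (halves * stack A B * halves))
          + (phi (stack B C + halves * stack B C * halves) - phi (stack B C)
            - phi (halves * stack B C * halves))
          + (phi (stack C A + halves * stack C A * halves) - phi (stack C A)
            - phi (halves * stack C A * halves))) := by
  set a : ℤ := -n with ha
  set f : ℤ → ℝ := fun k => term (clip (scl k) A) (clip (scl k) B) (clip (scl k) C) with hf
  change |f n - f a| ≤ _
  have hsum : f n - f a = ∑ i ∈ Finset.range (2 * n), (f (a + (i + 1 : ℕ)) - f (a + i)) := by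
    rw [Finset.sum_range_sub (fun i : ℕ => f (a + i)), Nat.cast_zero, add_zero,
      show a + ((2 * n : ℕ) : ℤ) = n by rw [ha]; push_cast; ring]
  rw [hsum]
  refine (Finset.abs_sum_le_sum_abs _ _).trans ?_
  refine (Finset.sum_le_sum fun i _ => ?_).trans (b := ∑ i ∈ Finset.range (2 * n),
    2 * (wt (a + i) ^ 3 * jay (scl (a + i)) (stack A B) (halves * stack A B * halves)
      + wt (a + i) ^ 3 * jay (scl (a + i)) (stack B C) (halves * stack B C * halves)
      + wt (a + i) ^ 3 * jay (scl (a + i)) (stack C A) (halves * stack C A * halves))) ?_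
  · rw [show (a + ((i + 1 : ℕ) : ℤ)) = a + i + 1 by push_cast; ring]
    exact term_clip_step A B C (a + i)
  rw [← Finset.mul_sum, Finset.sum_add_distrib, Finset.sum_add_distrib]
  have g1 := sum_jay_le (stack_psd A B) (flip_psd (stack_psd A B)) a (2 * n)
  have g2 := sum_jay_le (stack_psd B C) (flip_psd (stack_psd B C)) a (2 * n)
  have g3 := sum_jay_le (stack_psd C A) (flip_psd (stack_psd C A)) a (2 * n)
  linarith

theorem clip_term_tendsto (A B C : Matrix (ι ⊕ ι) (ι ⊕ ι) ℝ) :
    Tendsto (fun n : ℕ => |term (clip (scl n) A) (clip (scl n) B) (clip (scl n) C)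
      - term (clip (scl (-n)) A) (clip (scl (-n)) B) (clip (scl (-n)) C)|) atTop
      (𝓝 |term A B C|) := by
  have hc := continuous_term (ι := ι)
  have h1 := (hc.tendsto (A, B, C)).comp ((clip_tendsto_self A).prodMk_nhds
    ((clip_tendsto_self B).prodMk_nhds (clip_tendsto_self C)))
  have h2 := (hc.tendsto (0, 0, 0)).comp ((clip_tendsto_zero A).prodMk_nhds
    ((clip_tendsto_zero B).prodMk_nhds (clip_tendsto_zero C)))
  have h := (h1.sub h2).abs
  simp only [Function.comp_apply] at h
  have hz : term (0 : Matrix (ι ⊕ ι) (ι ⊕ ι) ℝ) 0 0 = 0 := by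
    simp only [term, Matrix.zero_mul, trace_zero]
  rw [hz, sub_zero] at h
  exact h

/-- The term of a node is bounded by the gain of the potential. -/
theorem node_le (A B C : Matrix (ι ⊕ ι) (ι ⊕ ι) ℝ) :
    |term A B C| ≤ 12 * (2 * (psi A.toBlocks₁₁ B.toBlocks₁₁ C.toBlocks₁₁
      + psi A.toBlocks₁₂ B.toBlocks₂₂ C.toBlocks₂₁
      + psi A.toBlocks₂₁ B.toBlocks₁₂ C.toBlocks₂₂
      + psi A.toBlocks₂₂ B.toBlocks₂₁ C.toBlocks₁₂) - psi A B C) := by
  refine le_of_tendsto' (clip_term_tendsto A B C) fun n => (telescope_le A B C n).trans ?_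
  have q1 := pair_gain A B
  have q2 := pair_gain B C
  have q3 := pair_gain C A
  unfold psi
  linarith

end P075
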