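import Mathlib

/-!
P075: algebra of resolvents of real positive semidefinite matrices.
-/

set_option linter.unusedSectionVars false

namespace P075

open Matrix

variable {ι κ : Type*} [Fintype ι] [DecidableEq ι] [Fintype κ] [DecidableEq κ]

/-- The resolvent `(G + s)⁻¹`. -/
noncomputable def res (s : ℝ) (G : Matrix ι ι ℝ) : Matrix ι ι ℝ := (G + s • 1)⁻¹

/-- The regularized projection `G (G + s)⁻¹`. -/
noncomputable def prj (s : ℝ) (G : Matrix ι ι ℝ) : Matrix ι ι ℝ := G * res s G

/-- The function `x ^ 2 / (x + s)` of `G`. -/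
noncomputable def fsq (s : ℝ) (G : Matrix ι ι ℝ) : Matrix ι ι ℝ := G - s • prj s G

omit [DecidableEq ι] [DecidableEq κ] in
theorem psd_congr {G : Matrix ι ι ℝ} (hG : G.PosSemidef) (M : Matrix κ ι ℝ) :
    (M * G * Mᵀ).PosSemidef := by
  simpa [conjTranspose_eq_transpose_of_trivial] using hG.mul_mul_conjTranspose_same M

omit [DecidableEq ι] [DecidableEq κ] in
theorem psd_gram (M : Matrix κ ι ℝ) : (Mᵀ * M).PosSemidef := by
  simpa [conjTranspose_eq_transpose_of_trivial] using posSemidef_conjTranspose_mul_self M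

omit [DecidableEq ι] [DecidableEq κ] in
theorem psd_gram' (M : Matrix κ ι ℝ) : (M * Mᵀ).PosSemidef := by
  simpa [conjTranspose_eq_transpose_of_trivial] using posSemidef_self_mul_conjTranspose M

omit [Fintype ι] [DecidableEq ι] in
theorem psd_symm {G : Matrix ι ι ℝ} (hG : G.PosSemidef) : Gᵀ = G := by
  simpa [conjTranspose_eq_transpose_of_trivial] using hG.isHermitian.eq

omit [DecidableEq ι] in
theorem psd_smul {G : Matrix ι ι ℝ} (hG : G.PosSemidef) {c : ℝ} (hc : 0 ≤ c) :
    (c • G).PosSemidef := hG.smul hc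

/-- Two positive semidefinite matrices have a product of nonnegative trace. -/
theorem trace_mul_nonneg {X Y : Matrix ι ι ℝ} (hX : X.PosSemidef) (hY : Y.PosSemidef) :
    0 ≤ (X * Y).trace := by
  obtain ⟨B, rfl⟩ : ∃ B : Matrix ι ι ℝ, Y = Bᵀ * B := by
    open scoped MatrixOrder in
    obtain ⟨B, hB⟩ := CStarAlgebra.nonneg_iff_eq_star_mul_self.mp hY.nonneg
    exact ⟨B, by simpa [star_eq_conjTranspose, conjTranspose_eq_transpose_of_trivial] using hB⟩
  have := (psd_congr hX B).trace_nonneg
  rwa [Matrix.trace_mul_cycle, Matrix.trace_mul_comm] at this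

theorem trace_mul_mono_left {X X' Y : Matrix ι ι ℝ} (hX : (X' - X).PosSemidef)
    (hY : Y.PosSemidef) : (X * Y).trace ≤ (X' * Y).trace := by
  have := trace_mul_nonneg hX hY
  rw [sub_mul, trace_sub] at this
  linarith

theorem trace_mul_mono_right {X Y Y' : Matrix ι ι ℝ} (hX : X.PosSemidef)
    (hY : (Y' - Y).PosSemidef) : (X * Y).trace ≤ (X * Y').trace := by
  have := trace_mul_nonneg hX hY
  rw [mul_sub, trace_sub] at this
  linarith

/-- The second order expansion of the inverse of a positive definite matrix. -/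
theorem inv_expand {P Q : Matrix ι ι ℝ} (hP : P.PosDef) (hQ : Q.PosDef) :
    P⁻¹ - Q⁻¹ + Q⁻¹ * (P - Q) * Q⁻¹
      = (Q⁻¹ * (P - Q)) * P⁻¹ * ((P - Q) * Q⁻¹) := by
  have hp : IsUnit P.det := (Matrix.isUnit_iff_isUnit_det P).mp hP.isUnit
  have hq : IsUnit Q.det := (Matrix.isUnit_iff_isUnit_det Q).mp hQ.isUnit
  have e1 : P * P⁻¹ = 1 := Matrix.mul_nonsing_inv P hp
  have e2 : P⁻¹ * P = 1 := Matrix.nonsing_inv_mul P hp
  have e3 : Q * Q⁻¹ = 1 := Matrix.mul_nonsing_inv Q hq
  have e4 : Q⁻¹ * Q = 1 := Matrix.nonsing_inv_mul Q hq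
  have a1 : (P - Q) * P⁻¹ * (P - Q) = (P - Q) - Q + Q * P⁻¹ * Q := by
    have : (P - Q) * P⁻¹ * (P - Q)
        = (P * P⁻¹) * P - (P * P⁻¹) * Q - Q * (P⁻¹ * P) + Q * P⁻¹ * Q := by noncomm_ring
    rw [this, e1, e2]; noncomm_ring
  calc P⁻¹ - Q⁻¹ + Q⁻¹ * (P - Q) * Q⁻¹
      = Q⁻¹ * (P - Q) * Q⁻¹ - Q⁻¹ * (Q * Q⁻¹) + (Q⁻¹ * Q) * P⁻¹ * (Q * Q⁻¹) := by
        rw [e3, e4]; noncomm_ring
    _ = Q⁻¹ * ((P - Q) - Q + Q * P⁻¹ * Q) * Q⁻¹ := by noncomm_ring
    _ = _ := by rw [← a1]; noncomm_ring

theorem inv_convex {P Q : Matrix ι ι ℝ} (hP : P.PosDef) (hQ : Q.PosDef) :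
    (P⁻¹ - Q⁻¹ + Q⁻¹ * (P - Q) * Q⁻¹).PosSemidef := by
  rw [inv_expand hP hQ]
  have hT : (Q⁻¹ * (P - Q))ᵀ = (P - Q) * Q⁻¹ := by
    rw [transpose_mul, transpose_sub, psd_symm hP.posSemidef, psd_symm hQ.posSemidef,
      psd_symm hQ.inv.posSemidef]
  rw [← hT]
  exact psd_congr hP.inv.posSemidef _

/-- The inverse is antitone. -/
theorem inv_antitone {P Q : Matrix ι ι ℝ} (hP : P.PosDef) (hQ : Q.PosDef)
    (h : (Q - P).PosSemidef) : (P⁻¹ - Q⁻¹).PosSemidef := by
  have h1 := inv_convex hP hQ
  have h2 := psd_congr h Q⁻¹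
  rw [psd_symm hQ.inv.posSemidef] at h2
  have h3 := h1.add h2
  have : P⁻¹ - Q⁻¹ + Q⁻¹ * (P - Q) * Q⁻¹ + Q⁻¹ * (Q - P) * Q⁻¹ = P⁻¹ - Q⁻¹ := by noncomm_ring
  rwa [this] at h3

section Single

variable {G : Matrix ι ι ℝ} (hG : G.PosSemidef) {s : ℝ} (hs : 0 < s)
include hG hs

theorem shift_posDef : (G + s • 1).PosDef :=
  Matrix.PosDef.posSemidef_add hG (Matrix.PosDef.one.smul hs)

theorem res_posDef : (res s G).PosDef := (shift_posDef hG hs).inv

theorem res_psd : (res s G).PosSemidef := (res_posDef hG hs).posSemidef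

theorem res_symm : (res s G)ᵀ = res s G := psd_symm (res_psd hG hs)

theorem prj_eq : prj s G = 1 - s • res s G := by
  have h : (G + s • 1) * res s G = 1 := Matrix.mul_nonsing_inv _
    ((Matrix.isUnit_iff_isUnit_det _).mp (shift_posDef hG hs).isUnit)
  rw [add_mul, smul_mul_assoc, one_mul] at h
  exact eq_sub_of_add_eq h

theorem res_mul_eq : res s G * G = prj s G := by
  have h : res s G * (G + s • 1) = 1 := Matrix.nonsing_inv_mul _
    ((Matrix.isUnit_iff_isUnit_det _).mp (shift_posDef hG hs).isUnit)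
  rw [mul_add, mul_smul_comm, mul_one] at h
  rw [prj_eq hG hs]
  exact eq_sub_of_add_eq h

theorem prj_symm : (prj s G)ᵀ = prj s G := by
  rw [prj_eq hG hs, transpose_sub, transpose_one, transpose_smul, res_symm hG hs]

theorem prj_psd : (prj s G).PosSemidef := by
  have : prj s G = res s G * (G * G + s • G) * (res s G)ᵀ := by
    rw [res_symm hG hs]
    calc prj s G = prj s G * ((G + s • 1) * res s G) := by
          rw [show (G + s • 1) * res s G = 1 from Matrix.mul_nonsing_inv _
            ((Matrix.isUnit_iff_isUnit_det _).mp (shift_posDef hG hs).isUnit), mul_one]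
      _ = _ := by
          rw [← res_mul_eq hG hs]
          simp only [mul_add, add_mul, mul_smul_comm, smul_mul_assoc, one_mul, mul_assoc]
  rw [this]
  refine psd_congr ?_ _
  have h2 : (G * G).PosSemidef := by
    have := psd_gram G
    rwa [psd_symm hG] at this
  exact h2.add (hG.smul hs.le)

theorem one_sub_prj_psd : (1 - prj s G).PosSemidef := by
  rw [prj_eq hG hs, sub_sub_cancel]
  exact (res_psd hG hs).smul hs.le

/-- `prj` is idempotent up to a positive semidefinite defect. -/
theorem prj_sub_sq_psd : (prj s G - prj s G * prj s G).PosSemidef := by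
  have : prj s G - prj s G * prj s G = s • (res s G * G * (res s G)ᵀ) := by
    rw [res_symm hG hs, res_mul_eq hG hs]
    conv_lhs => rw [show prj s G - prj s G * prj s G = prj s G * (1 - prj s G) by noncomm_ring]
    rw [prj_eq hG hs, sub_sub_cancel, mul_smul_comm]
  rw [this]
  exact (psd_congr hG _).smul hs.le

theorem fsq_eq : fsq s G = G * res s G * G := by
  rw [fsq, mul_assoc, res_mul_eq hG hs]
  have := prj_eq hG hs
  calc G - s • prj s G = G * 1 - s • (G * res s G) := by rw [mul_one]; rfl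
    _ = G * prj s G := by rw [this, mul_sub, mul_smul_comm]

theorem fsq_psd : (fsq s G).PosSemidef := by
  rw [fsq_eq hG hs]
  have := psd_congr (res_psd hG hs) G
  rwa [psd_symm hG] at this

theorem trace_fsq_nonneg : 0 ≤ (fsq s G).trace := (fsq_psd hG hs).trace_nonneg

theorem trace_fsq_le : (fsq s G).trace ≤ G.trace := by
  rw [fsq, trace_sub, trace_smul]
  have := (prj_psd hG hs).trace_nonneg
  have : 0 ≤ s • (prj s G).trace := smul_nonneg hs.le this
  linarith

theorem trace_fsq_le_sq : s * (fsq s G).trace ≤ (G * G).trace := by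
  have hGG : (G * G).PosSemidef := by
    have := psd_gram G
    rwa [psd_symm hG] at this
  have h : 0 ≤ ((1 - s • res s G) * (G * G)).trace := by
    rw [← prj_eq hG hs]; exact trace_mul_nonneg (prj_psd hG hs) hGG
  rw [sub_mul, one_mul, trace_sub, smul_mul_assoc, trace_smul, smul_eq_mul] at h
  rw [fsq_eq hG hs, Matrix.trace_mul_comm, ← mul_assoc, Matrix.trace_mul_comm]
  linarith

theorem trace_prj_nonneg : 0 ≤ (prj s G).trace := (prj_psd hG hs).trace_nonneg

theorem trace_prj_le : s * (prj s G).trace ≤ G.trace := by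
  have := trace_fsq_nonneg hG hs
  rw [fsq, trace_sub, trace_smul, smul_eq_mul] at this
  linarith

end Single

section Compare

variable {G H : Matrix ι ι ℝ} {s t : ℝ}

theorem res_antitone (hG : G.PosSemidef) (hH : H.PosSemidef) (hs : 0 < s)
    (h : (H - G).PosSemidef) : (res s G - res s H).PosSemidef :=
  inv_antitone (shift_posDef hG hs) (shift_posDef hH hs) (by simpa using h)

theorem prj_mono (hG : G.PosSemidef) (hH : H.PosSemidef) (hs : 0 < s)
    (h : (H - G).PosSemidef) : (prj s H - prj s G).PosSemidef := by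
  rw [prj_eq hG hs, prj_eq hH hs, sub_sub_sub_cancel_left, ← smul_sub]
  exact (res_antitone hG hH hs h).smul hs.le

/-- The difference of `prj` at the scales `s` and `t`. -/
theorem prj_sub_prj (hG : G.PosSemidef) (hs : 0 < s) (ht : 0 < t) :
    prj s G - prj t G = (t - s) • (res s G * G * res t G) := by
  have a : res s G * (G + s • 1) = 1 := Matrix.nonsing_inv_mul _
    ((Matrix.isUnit_iff_isUnit_det _).mp (shift_posDef hG hs).isUnit)
  have b : (G + t • 1) * res t G = 1 := Matrix.mul_nonsing_inv _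
    ((Matrix.isUnit_iff_isUnit_det _).mp (shift_posDef hG ht).isUnit)
  have e1 : prj s G = res s G * G * ((G + t • 1) * res t G) := by
    rw [b, mul_one, res_mul_eq hG hs]
  have e2 : prj t G = res s G * (G + s • 1) * (G * res t G) := by
    rw [a, one_mul]; rfl
  rw [e1, e2]
  simp only [mul_add, add_mul, mul_smul_comm, smul_mul_assoc, mul_one, one_mul, mul_assoc,
    sub_smul]
  abel

theorem res_comm (hG : G.PosSemidef) (hs : 0 < s) (ht : 0 < t) :
    res s G * res t G = res t G * res s G := by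
  have hst : (G + s • 1) * (G + t • 1) = (G + t • 1) * (G + s • 1) := by
    simp only [mul_add, add_mul, mul_smul_comm, smul_mul_assoc, mul_one, one_mul, smul_add,
      smul_smul, mul_comm s t]
    abel
  unfold res
  rw [← Matrix.mul_inv_rev, ← Matrix.mul_inv_rev, hst]

theorem res_comm_self (hG : G.PosSemidef) (hs : 0 < s) : res s G * G = G * res s G := by
  rw [res_mul_eq hG hs]; rfl

theorem prj_anti (hG : G.PosSemidef) (hs : 0 < s) (hst : s ≤ t) :
    (prj s G - prj t G).PosSemidef := by
  have ht : 0 < t := lt_of_lt_of_le hs hst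
  rw [prj_eq hG hs, prj_eq hG ht, sub_sub_sub_cancel_left]
  have h : (res s G - res t G).PosSemidef := by
    refine inv_antitone (shift_posDef hG hs) (shift_posDef hG ht) ?_
    have : G + t • 1 - (G + s • 1) = (t - s) • (1 : Matrix ι ι ℝ) := by
      rw [sub_smul]; abel
    rw [this]
    exact PosSemidef.one.smul (sub_nonneg.mpr hst)
  have e : t • res t G - s • res s G
      = (t - s) • (res s G * G * res t G) := by
    have := prj_sub_prj hG hs ht
    rwa [prj_eq hG hs, prj_eq hG ht, sub_sub_sub_cancel_left] at this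
  rw [e]
  refine PosSemidef.smul ?_ (sub_nonneg.mpr hst)
  have hmid : (G * G * G + (s + t) • (G * G) + (s * t) • G).PosSemidef := by
    have h3 : (G * G * G).PosSemidef := by
      have := psd_congr hG G
      rwa [psd_symm hG] at this
    have h2 : (G * G).PosSemidef := by
      have := psd_gram G
      rwa [psd_symm hG] at this
    exact (h3.add (h2.smul (by positivity))).add (hG.smul (by positivity))
  have key := psd_congr hmid (res s G * res t G)
  have hT : (res s G * res t G)ᵀ = res s G * res t G := by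
    rw [transpose_mul, res_symm hG hs, res_symm hG ht, res_comm hG ht hs]
  rw [hT] at key
  have a : res s G * (G + s • 1) = 1 := Matrix.nonsing_inv_mul _
    ((Matrix.isUnit_iff_isUnit_det _).mp (shift_posDef hG hs).isUnit)
  have b : res t G * (G + t • 1) = 1 := Matrix.nonsing_inv_mul _
    ((Matrix.isUnit_iff_isUnit_det _).mp (shift_posDef hG ht).isUnit)
  have : res s G * res t G * (G * G * G + (s + t) • (G * G) + (s * t) • G)
      * (res s G * res t G) = res s G * G * res t G := by
    have hm : G * G * G + (s + t) • (G * G) + (s * t) • G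
        = (G + t • 1) * (G + s • 1) * G := by
      simp only [mul_add, add_mul, mul_smul_comm, smul_mul_assoc, mul_one, one_mul,
        add_smul, smul_add, smul_smul, mul_comm s t]
      abel
    rw [hm]
    calc res s G * res t G * ((G + t • 1) * (G + s • 1) * G) * (res s G * res t G)
        = res s G * (res t G * (G + t • 1)) * (G + s • 1) * G * (res s G * res t G) := by
          simp only [mul_assoc]
      _ = G * res s G * res t G := by rw [b, mul_one, a, one_mul, mul_assoc]
      _ = _ := by rw [res_comm_self hG hs]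
  rwa [this] at key

/-- `prj s ≤ (t / s) • prj t` for `s ≤ t`. -/
theorem prj_le_mul_prj (hG : G.PosSemidef) (hs : 0 < s) (hst : s ≤ t) :
    (t • prj t G - s • prj s G).PosSemidef := by
  have ht : 0 < t := lt_of_lt_of_le hs hst
  -- `s prj s = G - fsq s` and `fsq` decreases in `s`
  have e : t • prj t G - s • prj s G = G * (res s G - res t G) * Gᵀ := by
    rw [psd_symm hG, mul_sub, sub_mul, ← fsq_eq hG hs, ← fsq_eq hG ht, fsq, fsq]
    abel
  rw [e]
  refine psd_congr (inv_antitone (shift_posDef hG hs) (shift_posDef hG ht) ?_) G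
  have : G + t • 1 - (G + s • 1) = (t - s) • (1 : Matrix ι ι ℝ) := by
    rw [sub_smul]; abel
  rw [this]
  exact PosSemidef.one.smul (sub_nonneg.mpr hst)

/-- Trace convexity of `fsq`. -/
theorem trace_fsq_convex (hG : G.PosSemidef) (hH : H.PosSemidef) (hs : 0 < s) :
    2 * (fsq s ((2:ℝ)⁻¹ • (G + H))).trace ≤ (fsq s G).trace + (fsq s H).trace := by
  set M := (2:ℝ)⁻¹ • (G + H) with hM
  have hMp : M.PosSemidef := (hG.add hH).smul (by norm_num)
  have hsum : G + H = (2:ℝ) • M := by rw [hM, smul_smul]; norm_num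
  have h1 := inv_convex (shift_posDef hG hs) (shift_posDef hMp hs)
  have h2 := inv_convex (shift_posDef hH hs) (shift_posDef hMp hs)
  have h := (h1.add h2).trace_nonneg
  have e : (G + s • 1)⁻¹ - (M + s • 1)⁻¹ + (M + s • 1)⁻¹ * (G + s • 1 - (M + s • 1)) * (M + s • 1)⁻¹
      + ((H + s • 1)⁻¹ - (M + s • 1)⁻¹
        + (M + s • 1)⁻¹ * (H + s • 1 - (M + s • 1)) * (M + s • 1)⁻¹)
      = res s G + res s H - (2:ℝ) • res s M := by
    have : (G + s • 1 - (M + s • 1)) + (H + s • 1 - (M + s • 1)) = 0 := by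
      rw [show G + s • 1 - (M + s • 1) + (H + s • 1 - (M + s • 1)) = G + H - (M + M) by abel,
        hsum, two_smul, sub_self]
    have hz := congrArg (fun X => (M + s • 1)⁻¹ * X * (M + s • 1)⁻¹) this
    simp only [mul_add, add_mul, mul_zero, zero_mul] at hz
    rw [two_smul]
    unfold res
    linear_combination (norm := abel) hz
  rw [e] at h
  simp only [trace_add, trace_sub, trace_smul, smul_eq_mul] at h
  have f : ∀ X : Matrix ι ι ℝ, X.PosSemidef →
      (fsq s X).trace = X.trace - s * (Fintype.card ι : ℝ) + s ^ 2 * (res s X).trace := by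
    intro X hX
    rw [fsq, prj_eq hX hs]
    simp only [trace_sub, trace_smul, smul_eq_mul, trace_one]
    ring
  rw [f G hG, f H hH, f M hMp]
  have : M.trace = (G.trace + H.trace) / 2 := by
    rw [hM, trace_smul, trace_add, smul_eq_mul]; ring
  rw [this]
  nlinarith [sq_nonneg s, h]

end Compare

end P075
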