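import Vale.Agent.P075.Node
import Vale.Agent.P075.DiscreteDefs

/-!
P075: summation of the node inequality over the tree, giving the bound for the finite model.
-/

set_option linter.unusedSectionVars false

namespace P075

open Matrix

/-- Binary indices of length `r`. -/
def Idx : ℕ → Type
  | 0 => Unit
  | r + 1 => Idx r ⊕ Idx r

instance idxFintype : ∀ r, Fintype (Idx r)
  | 0 => inferInstanceAs (Fintype Unit)
  | r + 1 =>
    letI := idxFintype r
    inferInstanceAs (Fintype (Idx r ⊕ Idx r))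

instance idxDecidableEq : ∀ r, DecidableEq (Idx r)
  | 0 => inferInstanceAs (DecidableEq Unit)
  | r + 1 =>
    letI := idxDecidableEq r
    inferInstanceAs (DecidableEq (Idx r ⊕ Idx r))

/-- The number with given binary digits, the first digit leading. -/
def idxNum : (r : ℕ) → Idx r → ℕ
  | 0, _ => 0
  | r + 1, Sum.inl i => idxNum r i
  | r + 1, Sum.inr i => 2 ^ r + idxNum r i

theorem sum_idx (r : ℕ) (F : ℕ → ℝ) :
    ∑ i : Idx r, F (idxNum r i) = ∑ i ∈ Finset.range (2 ^ r), F i := by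
  induction r generalizing F with
  | zero =>
    change ∑ i : Unit, F 0 = _
    simp
  | succ r ih =>
    change ∑ i : Idx r ⊕ Idx r, F (idxNum (r + 1) i) = _
    rw [Fintype.sum_sum_type, pow_succ, mul_two, Finset.sum_range_add]
    exact congrArg₂ (· + ·) (ih F) (ih fun i => F (2 ^ r + i))

/-- A block of the kernel. -/
noncomputable def blk (m r : ℕ) (f : ℕ → ℕ → ℝ) (a b : ℕ) : Matrix (Idx r) (Idx r) ℝ :=
  Matrix.of fun i j => f (a + idxNum r i) (b + idxNum r j) / (2:ℝ) ^ m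

/-- A block whose index is split in halves. -/
noncomputable def blkS (m r : ℕ) (f : ℕ → ℕ → ℝ) (a b : ℕ) :
    Matrix (Idx r ⊕ Idx r) (Idx r ⊕ Idx r) ℝ :=
  blk m (r + 1) f a b

section Tree

variable (m : ℕ) (f g h : ℕ → ℕ → ℝ)

/-- The potential of a node of the tree. -/
noncomputable def nodePsi (r a b c : ℕ) : ℝ :=
  psi (blk m r f a b) (blk m r g b c) (blk m r h c a)

/-- The term of a node of the tree. -/
noncomputable def nodeTerm (r a b c : ℕ) : ℝ :=
  term (blkS m r f a b) (blkS m r g b c) (blkS m r h c a)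

/-- The weighted sum of the terms below a node. -/
noncomputable def subForm : ℕ → (ℕ → ℝ) → ℕ → ℕ → ℕ → ℝ
  | 0, _, _, _, _ => 0
  | r + 1, e, a, b, c => e 0 * nodeTerm m f g h r a b c
      + 2 * (subForm r (fun j => e (j + 1)) a b c
        + subForm r (fun j => e (j + 1)) a (b + 2 ^ r) (c + 2 ^ r)
        + subForm r (fun j => e (j + 1)) (a + 2 ^ r) b (c + 2 ^ r)
        + subForm r (fun j => e (j + 1)) (a + 2 ^ r) (b + 2 ^ r) c)

/-- The weighted sum of the potentials of the leaves below a node. -/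
noncomputable def leafSum : ℕ → ℕ → ℕ → ℕ → ℝ
  | 0, a, b, c => nodePsi m f g h 0 a b c
  | r + 1, a, b, c => 2 * (leafSum r a b c + leafSum r a (b + 2 ^ r) (c + 2 ^ r)
      + leafSum r (a + 2 ^ r) b (c + 2 ^ r) + leafSum r (a + 2 ^ r) (b + 2 ^ r) c)

theorem blkS_ll (r a b : ℕ) (i j : Idx r) : blkS m r f a b (Sum.inl i) (Sum.inl j)
    = f (a + idxNum r i) (b + idxNum r j) / (2:ℝ) ^ m := rfl

theorem blkS_lr (r a b : ℕ) (i j : Idx r) : blkS m r f a b (Sum.inl i) (Sum.inr j)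
    = f (a + idxNum r i) (b + (2 ^ r + idxNum r j)) / (2:ℝ) ^ m := rfl

theorem blkS_rl (r a b : ℕ) (i j : Idx r) : blkS m r f a b (Sum.inr i) (Sum.inl j)
    = f (a + (2 ^ r + idxNum r i)) (b + idxNum r j) / (2:ℝ) ^ m := rfl

theorem blkS_rr (r a b : ℕ) (i j : Idx r) : blkS m r f a b (Sum.inr i) (Sum.inr j)
    = f (a + (2 ^ r + idxNum r i)) (b + (2 ^ r + idxNum r j)) / (2:ℝ) ^ m := rfl

theorem blk11 (r a b : ℕ) : (blkS m r f a b).toBlocks₁₁ = blk m r f a b := rfl

theorem blk12 (r a b : ℕ) : (blkS m r f a b).toBlocks₁₂ = blk m r f a (b + 2 ^ r) := by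
  ext i j
  change f (a + idxNum r i) (b + (2 ^ r + idxNum r j)) / _ = f _ _ / _
  rw [← add_assoc]

theorem blk21 (r a b : ℕ) : (blkS m r f a b).toBlocks₂₁ = blk m r f (a + 2 ^ r) b := by
  ext i j
  change f (a + (2 ^ r + idxNum r i)) (b + idxNum r j) / _ = f _ _ / _
  rw [← add_assoc]

theorem blk22 (r a b : ℕ) :
    (blkS m r f a b).toBlocks₂₂ = blk m r f (a + 2 ^ r) (b + 2 ^ r) := by
  ext i j
  change f (a + (2 ^ r + idxNum r i)) (b + (2 ^ r + idxNum r j)) / _ = f _ _ / _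
  rw [← add_assoc, ← add_assoc]

theorem nodeTerm_le (r a b c : ℕ) :
    |nodeTerm m f g h r a b c| ≤ 12 * (2 * (nodePsi m f g h r a b c
      + nodePsi m f g h r a (b + 2 ^ r) (c + 2 ^ r)
      + nodePsi m f g h r (a + 2 ^ r) b (c + 2 ^ r)
      + nodePsi m f g h r (a + 2 ^ r) (b + 2 ^ r) c) - nodePsi m f g h (r + 1) a b c) := by
  have key := node_le (blkS m r f a b) (blkS m r g b c) (blkS m r h c a)
  simp only [blk11, blk12, blk21, blk22] at key
  exact key

theorem subForm_le (r : ℕ) : ∀ (e : ℕ → ℝ), (∀ j, |e j| ≤ 1) → ∀ a b c : ℕ,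
    |subForm m f g h r e a b c|
      ≤ 12 * (leafSum m f g h r a b c - nodePsi m f g h r a b c) := by
  induction r with
  | zero => intro e _ a b c; simp [subForm, leafSum]
  | succ r ih =>
    intro e he a b c
    have he' : ∀ j, |e (j + 1)| ≤ 1 := fun j => he _
    have h0 : |e 0 * nodeTerm m f g h r a b c| ≤ |nodeTerm m f g h r a b c| := by
      rw [abs_mul]; exact mul_le_of_le_one_left (abs_nonneg _) (he 0)
    have h1 := ih _ he' a b c
    have h2 := ih _ he' a (b + 2 ^ r) (c + 2 ^ r)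
    have h3 := ih _ he' (a + 2 ^ r) b (c + 2 ^ r)
    have h4 := ih _ he' (a + 2 ^ r) (b + 2 ^ r) c
    have hn := nodeTerm_le m f g h r a b c
    rw [subForm, leafSum]
    rw [abs_le] at h1 h2 h3 h4
    have h5 := abs_le.mp (h0.trans hn)
    rw [abs_le]
    constructor <;> linarith [h1.1, h1.2, h2.1, h2.2, h3.1, h3.2, h4.1, h4.2, h5.1, h5.2]

end Tree

section Scalar

theorem fsq_scalar {ι : Type*} [Fintype ι] [DecidableEq ι] {x s : ℝ} (hx : 0 ≤ x) (hs : 0 < s) :
    fsq s (x • (1 : Matrix ι ι ℝ)) = (x ^ 2 / (x + s)) • 1 := by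
  have h : res s (x • (1 : Matrix ι ι ℝ)) = (x + s)⁻¹ • 1 := by
    refine Matrix.inv_eq_left_inv ?_
    rw [← add_smul, smul_mul_smul_comm, inv_mul_cancel₀ (by linarith), one_smul, one_mul]
  rw [fsq, prj, h, smul_mul_smul_comm, smul_smul, one_mul, ← sub_smul]
  congr 1
  field_simp
  ring

theorem psd_scalar {ι : Type*} [Fintype ι] [DecidableEq ι] {x : ℝ} (hx : 0 ≤ x) :
    (x • (1 : Matrix ι ι ℝ)).PosSemidef := PosSemidef.one.smul hx

theorem phi_scalar_mono {ι : Type*} [Fintype ι] [DecidableEq ι] {x y : ℝ} (hx : 0 ≤ x)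
    (hxy : x ≤ y) : phi (x • (1 : Matrix ι ι ℝ)) ≤ phi (y • (1 : Matrix ι ι ℝ)) := by
  have hy : 0 ≤ y := hx.trans hxy
  refine Summable.tsum_le_tsum (fun l => ?_) (summable_phiTerm (psd_scalar hx))
    (summable_phiTerm (psd_scalar hy))
  have hs := scl_pos l
  simp only [phiTerm, fsq_scalar hx hs, fsq_scalar hy hs, trace_smul, smul_eq_mul, trace_one]
  refine mul_le_mul_of_nonneg_left (mul_le_mul_of_nonneg_right ?_ (Nat.cast_nonneg _))
    (wt_pos l).le
  rw [div_le_div_iff₀ (by linarith) (by linarith)]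
  nlinarith [mul_nonneg (mul_nonneg hx hy) (sub_nonneg.mpr hxy),
    mul_nonneg hs.le (mul_nonneg (add_nonneg hx hy) (sub_nonneg.mpr hxy))]

theorem phi_four_zpow {ι : Type*} [Fintype ι] [DecidableEq ι] (n : ℤ) :
    phi (((4:ℝ) ^ n) • (1 : Matrix ι ι ℝ)) = (8:ℝ) ^ n * phi (1 : Matrix ι ι ℝ) := by
  have key : ∀ z : ℤ, phi (((4:ℝ) ^ (z + 1)) • (1 : Matrix ι ι ℝ))
      = 8 * phi (((4:ℝ) ^ z) • (1 : Matrix ι ι ℝ)) := by
    intro z
    have hp : (((4:ℝ) ^ z) • (1 : Matrix ι ι ℝ)).PosSemidef := psd_scalar (by positivity)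
    have e : ((4:ℝ) ^ (z + 1)) • (1 : Matrix ι ι ℝ)
        = (2:ℝ) • ((2:ℝ) • (((4:ℝ) ^ z) • (1 : Matrix ι ι ℝ))) := by
      rw [smul_smul, smul_smul, zpow_add_one₀ (by norm_num)]
      congr 1
      ring
    rw [e, phi_two_smul (hp.smul (by norm_num)), phi_two_smul hp]
    have := Real.mul_self_sqrt (show (0:ℝ) ≤ 2 by norm_num)
    linear_combination (4 * phi (((4:ℝ) ^ z) • (1 : Matrix ι ι ℝ))) * this
  induction n using Int.induction_on with
  | zero => simp
  | succ i ih => rw [key, ih, zpow_add_one₀ (by norm_num)]; ring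
  | pred i ih =>
    have := key (-(i : ℤ) - 1)
    rw [sub_add_cancel, ih] at this
    rw [show (8:ℝ) ^ (-(i : ℤ) - 1) = (8:ℝ) ^ (-(i : ℤ)) * 8⁻¹ from zpow_sub_one₀ (by norm_num) _]
    linarith

theorem phi_sq_add_le {ι : Type*} [Fintype ι] [DecidableEq ι] (u v : ℝ) :
    phi ((u ^ 2 + v ^ 2) • (1 : Matrix ι ι ℝ))
      ≤ 24 * phi (1 : Matrix ι ι ℝ) * (|u| ^ 3 + |v| ^ 3) := by
  have h0 : (0:ℝ) ≤ phi (1 : Matrix ι ι ℝ) := phi_nonneg PosSemidef.one
  set M := max |u| |v| with hM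
  rcases eq_or_lt_of_le (le_max_of_le_left (abs_nonneg u) : 0 ≤ M) with hz | hpos
  · have hu : u = 0 := abs_nonpos_iff.mp (hz ▸ le_max_left _ _)
    have hv : v = 0 := abs_nonpos_iff.mp (hz ▸ le_max_right _ _)
    subst hu hv
    have : phi ((0:ℝ) • (1 : Matrix ι ι ℝ)) = 0 := by
      simp [phi, phiTerm, fsq, prj]
    rw [show (0:ℝ) ^ 2 + (0:ℝ) ^ 2 = 0 by norm_num, this]
    simp
  obtain ⟨L, hL1, hL2⟩ := exists_mem_Ico_zpow hpos (one_lt_two : (1:ℝ) < 2)
  have e4 : ∀ z : ℤ, (4:ℝ) ^ z = ((2:ℝ) ^ z) ^ 2 := by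
    intro z
    rw [show (4:ℝ) = 2 ^ 2 by norm_num, ← zpow_natCast, ← zpow_natCast, ← _root_.zpow_mul,
      ← _root_.zpow_mul, mul_comm]
  have e8 : ∀ z : ℤ, (8:ℝ) ^ z = ((2:ℝ) ^ z) ^ 3 := by
    intro z
    rw [show (8:ℝ) = 2 ^ 3 by norm_num, ← zpow_natCast, ← zpow_natCast, ← _root_.zpow_mul,
      ← _root_.zpow_mul, mul_comm]
  have hu : u ^ 2 ≤ M ^ 2 := by rw [← sq_abs u]; exact pow_le_pow_left₀ (abs_nonneg _) (le_max_left _ _) 2
  have hv : v ^ 2 ≤ M ^ 2 := by rw [← sq_abs v]; exact pow_le_pow_left₀ (abs_nonneg _) (le_max_right _ _) 2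
  have hx : u ^ 2 + v ^ 2 ≤ 2 * (4:ℝ) ^ (L + 1) := by
    rw [e4]
    nlinarith [pow_le_pow_left₀ hpos.le hL2.le 2]
  have hM3 : M ^ 3 ≤ |u| ^ 3 + |v| ^ 3 := by
    rcases max_choice |u| |v| with hc | hc <;> rw [hM, hc] <;>
      linarith [pow_nonneg (abs_nonneg u) 3, pow_nonneg (abs_nonneg v) 3]
  calc phi ((u ^ 2 + v ^ 2) • (1 : Matrix ι ι ℝ))
      ≤ phi ((2 * (4:ℝ) ^ (L + 1)) • (1 : Matrix ι ι ℝ)) := phi_scalar_mono (by positivity) hx
    _ = 2 * Real.sqrt 2 * (8 * ((2:ℝ) ^ L) ^ 3 * phi (1 : Matrix ι ι ℝ)) := by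
        rw [mul_smul, phi_two_smul (psd_scalar (by positivity)), phi_four_zpow, e8,
          zpow_add_one₀ (by norm_num)]
        ring
    _ ≤ 2 * (3 / 2) * (8 * M ^ 3 * phi (1 : Matrix ι ι ℝ)) :=
        mul_le_mul (by linarith [sqrt_two_bounds.2])
          (mul_le_mul_of_nonneg_right (mul_le_mul_of_nonneg_left
            (pow_le_pow_left₀ (by positivity) hL1 3) (by norm_num)) h0)
          (by positivity) (by norm_num)
    _ ≤ _ := by nlinarith [mul_le_mul_of_nonneg_left hM3 h0]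

end Scalar

/-- The leaf constant. -/
noncomputable def leafConst : ℝ := 48 * phi (1 : Matrix (Idx 0) (Idx 0) ℝ)

theorem leafConst_nonneg : 0 ≤ leafConst :=
  mul_nonneg (by norm_num) (phi_nonneg PosSemidef.one)

/-- The sum of the cubes of the entries of one block. -/
noncomputable def cube (m : ℕ) (f : ℕ → ℕ → ℝ) (r a b : ℕ) : ℝ :=
  ∑ i ∈ Finset.range (2 ^ r), ∑ j ∈ Finset.range (2 ^ r), |f (a + i) (b + j) / (2:ℝ) ^ m| ^ 3

theorem cube_nonneg (m : ℕ) (f : ℕ → ℕ → ℝ) (r a b : ℕ) : 0 ≤ cube m f r a b :=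
  Finset.sum_nonneg fun _ _ => Finset.sum_nonneg fun _ _ => pow_nonneg (abs_nonneg _) 3

theorem cube_succ (m : ℕ) (f : ℕ → ℕ → ℝ) (r a b : ℕ) :
    cube m f (r + 1) a b = cube m f r a b + cube m f r a (b + 2 ^ r)
      + cube m f r (a + 2 ^ r) b + cube m f r (a + 2 ^ r) (b + 2 ^ r) := by
  unfold cube
  rw [pow_succ 2 r, mul_two]
  simp only [Finset.sum_range_add, Finset.sum_add_distrib, add_assoc]
  ring

theorem leafSum_le (m : ℕ) (f g h : ℕ → ℕ → ℝ) (r : ℕ) : ∀ a b c : ℕ,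
    leafSum m f g h r a b c
      ≤ leafConst * (2:ℝ) ^ r * (cube m f r a b + cube m g r b c + cube m h r c a) := by
  induction r with
  | zero =>
    intro a b c
    have e : ∀ (p q : ℕ → ℕ → ℝ) (x y z : ℕ),
        phi (stack (blk m 0 p x y) (blk m 0 q y z))
          ≤ 24 * phi (1 : Matrix (Idx 0) (Idx 0) ℝ) * (cube m p 0 x y + cube m q 0 y z) := by
      intro p q x y z
      have hs : stack (blk m 0 p x y) (blk m 0 q y z)
          = ((p x y / (2:ℝ) ^ m) ^ 2 + (q y z / (2:ℝ) ^ m) ^ 2)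
              • (1 : Matrix (Idx 0) (Idx 0) ℝ) := by
        ext i j
        obtain rfl : i = j := rfl
        have hsum : ∀ F : Idx 0 → ℝ, ∑ k, F k = F i := fun F => by
          refine Finset.sum_eq_single_of_mem i (Finset.mem_univ i) fun b _ hb => ?_
          exact absurd (show b = i from rfl) hb
        simp only [stack, Matrix.add_apply, Matrix.mul_apply, Matrix.transpose_apply, hsum,
          Matrix.smul_apply, Matrix.one_apply_eq, smul_eq_mul, blk, Matrix.of_apply, idxNum,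
          add_zero]
        ring
      rw [hs]
      refine (phi_sq_add_le _ _).trans (le_of_eq ?_)
      simp [cube]
    simp only [leafSum, nodePsi, psi, leafConst, pow_zero, mul_one]
    linarith [e f g a b c, e g h b c a, e h f c a b]
  | succ r ih =>
    intro a b c
    rw [leafSum, cube_succ, cube_succ, cube_succ, pow_succ]
    have h1 := ih a b c
    have h2 := ih a (b + 2 ^ r) (c + 2 ^ r)
    have h3 := ih (a + 2 ^ r) b (c + 2 ^ r)
    have h4 := ih (a + 2 ^ r) (b + 2 ^ r) c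
    calc 2 * (leafSum m f g h r a b c + leafSum m f g h r a (b + 2 ^ r) (c + 2 ^ r)
          + leafSum m f g h r (a + 2 ^ r) b (c + 2 ^ r)
          + leafSum m f g h r (a + 2 ^ r) (b + 2 ^ r) c)
        ≤ 2 * (leafConst * (2:ℝ) ^ r * (cube m f r a b + cube m g r b c + cube m h r c a)
          + leafConst * (2:ℝ) ^ r * (cube m f r a (b + 2 ^ r) + cube m g r (b + 2 ^ r) (c + 2 ^ r)
            + cube m h r (c + 2 ^ r) a)
          + leafConst * (2:ℝ) ^ r * (cube m f r (a + 2 ^ r) b + cube m g r b (c + 2 ^ r)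
            + cube m h r (c + 2 ^ r) (a + 2 ^ r))
          + leafConst * (2:ℝ) ^ r * (cube m f r (a + 2 ^ r) (b + 2 ^ r)
            + cube m g r (b + 2 ^ r) c + cube m h r c (a + 2 ^ r))) := by linarith
      _ = _ := by ring

/-! ### The tree computes the finite model -/

/-- One summand of a scale of a block triple. -/
noncomputable def summand (m : ℕ) (f g h : ℕ → ℕ → ℝ) (r j a b c i k l : ℕ) : ℝ :=
  if (i ^^^ k ^^^ l) >>> (r - j) = 0
    then bsgn (i ^^^ k ^^^ l) (r - 1 - j)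
      * (f (a + i) (b + k) / (2:ℝ) ^ m) * (g (b + k) (c + l) / (2:ℝ) ^ m)
      * (h (c + l) (a + i) / (2:ℝ) ^ m)
    else 0

/-- One scale of a block triple. -/
noncomputable def subScale (m : ℕ) (f g h : ℕ → ℕ → ℝ) (r j a b c : ℕ) : ℝ :=
  (2:ℝ) ^ j * ∑ i ∈ Finset.range (2 ^ r), ∑ k ∈ Finset.range (2 ^ r), ∑ l ∈ Finset.range (2 ^ r),
    summand m f g h r j a b c i k l

theorem xor_split {r p q i k : ℕ} (hi : i < 2 ^ r) (hk : k < 2 ^ r) :
    (2 ^ r * p + i) ^^^ (2 ^ r * q + k) = 2 ^ r * (p ^^^ q) + (i ^^^ k) := by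
  refine Nat.eq_of_testBit_eq fun t => ?_
  rw [Nat.testBit_xor, Nat.testBit_two_pow_mul_add _ hi, Nat.testBit_two_pow_mul_add _ hk,
    Nat.testBit_two_pow_mul_add _ (Nat.xor_lt_two_pow hi hk)]
  split_ifs <;> simp [Nat.testBit_xor]

theorem bsgn_top {r p w : ℕ} (hw : w < 2 ^ r) :
    bsgn (2 ^ r * p + w) r = bsgn p 0 := by
  unfold bsgn
  rw [Nat.testBit_two_pow_mul_add _ hw, if_neg (lt_irrefl r), Nat.sub_self]

theorem bsgn_low {r t p w : ℕ} (hw : w < 2 ^ r) (ht : t < r) :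
    bsgn (2 ^ r * p + w) t = bsgn w t := by
  unfold bsgn
  rw [Nat.testBit_two_pow_mul_add _ hw, if_pos ht]

/-- Splitting one top bit of a triple sum. -/
theorem sum_split3 (r : ℕ) (F : ℕ → ℕ → ℕ → ℝ) :
    ∑ i ∈ Finset.range (2 ^ (r + 1)), ∑ k ∈ Finset.range (2 ^ (r + 1)),
      ∑ l ∈ Finset.range (2 ^ (r + 1)), F i k l
    = ∑ i ∈ Finset.range (2 ^ r), ∑ k ∈ Finset.range (2 ^ r), ∑ l ∈ Finset.range (2 ^ r),
      (F i k l + F i k (2 ^ r + l) + F i (2 ^ r + k) l + F i (2 ^ r + k) (2 ^ r + l)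
        + F (2 ^ r + i) k l + F (2 ^ r + i) k (2 ^ r + l) + F (2 ^ r + i) (2 ^ r + k) l
        + F (2 ^ r + i) (2 ^ r + k) (2 ^ r + l)) := by
  simp only [pow_succ 2 r, mul_two, Finset.sum_range_add, Finset.sum_add_distrib]
  ring

theorem subScale_succ (m : ℕ) (f g h : ℕ → ℕ → ℝ) {r j : ℕ} (hj : j < r) (a b c : ℕ) :
    subScale m f g h (r + 1) (j + 1) a b c
      = 2 * (subScale m f g h r j a b c + subScale m f g h r j a (b + 2 ^ r) (c + 2 ^ r)
        + subScale m f g h r j (a + 2 ^ r) b (c + 2 ^ r)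
        + subScale m f g h r j (a + 2 ^ r) (b + 2 ^ r) c) := by
  unfold subScale
  rw [sum_split3, pow_succ]
  simp only [← mul_add, ← Finset.sum_add_distrib]
  rw [mul_comm ((2:ℝ) ^ j) 2, mul_assoc]
  congr 2
  refine Finset.sum_congr rfl fun i hi => Finset.sum_congr rfl fun k hk =>
    Finset.sum_congr rfl fun l hl => ?_
  rw [Finset.mem_range] at hi hk hl
  have hw : i ^^^ k ^^^ l < 2 ^ r := Nat.xor_lt_two_pow (Nat.xor_lt_two_pow hi hk) hl
  have hx : ∀ p q t : ℕ, (2 ^ r * p + i) ^^^ (2 ^ r * q + k) ^^^ (2 ^ r * t + l)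
      = 2 ^ r * (p ^^^ q ^^^ t) + (i ^^^ k ^^^ l) := by
    intro p q t
    rw [xor_split hi hk, xor_split (Nat.xor_lt_two_pow hi hk) hl]
  have ev : ∀ p q t : ℕ, p ^^^ q ^^^ t = 0 →
      summand m f g h (r + 1) (j + 1) a b c (2 ^ r * p + i) (2 ^ r * q + k) (2 ^ r * t + l)
        = summand m f g h r j (a + 2 ^ r * p) (b + 2 ^ r * q) (c + 2 ^ r * t) i k l := by
    intro p q t hpqt
    unfold summand
    rw [hx, hpqt, mul_zero, zero_add, Nat.succ_sub_succ, show r + 1 - 1 - (j + 1) = r - 1 - j by omega]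
    simp only [← add_assoc]
  have od : ∀ p q t : ℕ, p ^^^ q ^^^ t = 1 →
      summand m f g h (r + 1) (j + 1) a b c (2 ^ r * p + i) (2 ^ r * q + k) (2 ^ r * t + l) = 0 := by
    intro p q t hpqt
    unfold summand
    rw [hx, hpqt, mul_one, if_neg]
    rw [Nat.succ_sub_succ, Nat.shiftRight_eq_div_pow]
    have h1 : 2 ^ (r - j) ≤ 2 ^ r + (i ^^^ k ^^^ l) :=
      (Nat.pow_le_pow_right (by norm_num) (Nat.sub_le r j)).trans (Nat.le_add_right _ _)
    exact Nat.ne_of_gt (Nat.div_pos h1 (by positivity))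
  have e0 := ev 0 0 0 rfl
  have e1 := ev 0 1 1 rfl
  have e2 := ev 1 0 1 rfl
  have e3 := ev 1 1 0 rfl
  have o0 := od 0 0 1 rfl
  have o1 := od 0 1 0 rfl
  have o2 := od 1 0 0 rfl
  have o3 := od 1 1 1 rfl
  simp only [mul_zero, mul_one, zero_add, add_zero] at e0 e1 e2 e3 o0 o1 o2 o3
  rw [e0, e1, e2, e3, o0, o1, o2, o3]
  ring

theorem subScale_zero (m : ℕ) (f g h : ℕ → ℕ → ℝ) (r a b c : ℕ) :
    subScale m f g h (r + 1) 0 a b c = nodeTerm m f g h r a b c := by
  have expand : ∀ A B C : Matrix (Idx r ⊕ Idx r) (Idx r ⊕ Idx r) ℝ,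
      term A B C = ∑ i : Idx r, ∑ k : Idx r, ∑ l : Idx r,
        (A (Sum.inl i) (Sum.inl k) * B (Sum.inl k) (Sum.inl l) * C (Sum.inl l) (Sum.inl i)
          - A (Sum.inl i) (Sum.inl k) * B (Sum.inl k) (Sum.inr l) * C (Sum.inr l) (Sum.inl i)
          - A (Sum.inl i) (Sum.inr k) * B (Sum.inr k) (Sum.inl l) * C (Sum.inl l) (Sum.inl i)
          + A (Sum.inl i) (Sum.inr k) * B (Sum.inr k) (Sum.inr l) * C (Sum.inr l) (Sum.inl i)
          - A (Sum.inr i) (Sum.inl k) * B (Sum.inl k) (Sum.inl l) * C (Sum.inl l) (Sum.inr i)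
          + A (Sum.inr i) (Sum.inl k) * B (Sum.inl k) (Sum.inr l) * C (Sum.inr l) (Sum.inr i)
          + A (Sum.inr i) (Sum.inr k) * B (Sum.inr k) (Sum.inl l) * C (Sum.inl l) (Sum.inr i)
          - A (Sum.inr i) (Sum.inr k) * B (Sum.inr k) (Sum.inr l) * C (Sum.inr l) (Sum.inr i)) := by
    intro A B C
    set σ : Idx r ⊕ Idx r → ℝ := Sum.elim (fun _ => 1) (fun _ => -1) with hσ
    have hh : (halves : Matrix (Idx r ⊕ Idx r) (Idx r ⊕ Idx r) ℝ) = diagonal σ := by
      ext (i | i) (j | j) <;> by_cases hij : i = j <;>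
        simp [halves, hσ, diagonal, hij]
    have e : term A B C = ∑ i, ∑ k, ∑ l, A i k * σ k * (B k l * σ l) * (C l i * σ i) := by
      have hd : ∀ X : Matrix (Idx r ⊕ Idx r) (Idx r ⊕ Idx r) ℝ,
          X * diagonal σ = Matrix.of fun i k => X i k * σ k := fun X => by
        ext i k; simp [mul_diagonal]
      rw [term, hh, show A * diagonal σ * B * diagonal σ * C * diagonal σ
        = (A * diagonal σ) * ((B * diagonal σ) * (C * diagonal σ)) by simp only [mul_assoc],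
        hd, hd, hd]
      simp only [trace, diag, mul_apply, Matrix.of_apply, Finset.mul_sum, mul_assoc]
    rw [e]
    simp only [Fintype.sum_sum_type, hσ, Sum.elim_inl, Sum.elim_inr, ← Finset.sum_add_distrib]
    refine Finset.sum_congr rfl fun i _ => ?_
    refine Finset.sum_congr rfl fun k _ => ?_
    refine Finset.sum_congr rfl fun l _ => ?_
    ring
  rw [nodeTerm, expand]
  simp only [blkS_ll, blkS_lr, blkS_rl, blkS_rr]
  unfold subScale
  rw [sum_split3, pow_zero, one_mul, ← sum_idx]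
  refine Finset.sum_congr rfl fun i' _ => ?_
  rw [← sum_idx]
  refine Finset.sum_congr rfl fun k' _ => ?_
  rw [← sum_idx]
  refine Finset.sum_congr rfl fun l' _ => ?_
  have lt : ∀ (n : ℕ) (x : Idx n), idxNum n x < 2 ^ n := by
    intro n
    induction n with
    | zero => intro x; simp [idxNum]
    | succ n ih =>
      intro x
      rcases x with x | x
      · exact (ih x).trans (Nat.pow_lt_pow_right (by norm_num) (Nat.lt_succ_self n))
      · have := ih x; simp only [idxNum, pow_succ]; omega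
  have hi := lt r i'
  have hk := lt r k'
  have hl := lt r l'
  have ev : ∀ p q t : ℕ, p < 2 → q < 2 → t < 2 →
      summand m f g h (r + 1) 0 a b c (2 ^ r * p + idxNum r i') (2 ^ r * q + idxNum r k')
          (2 ^ r * t + idxNum r l')
        = bsgn (p ^^^ q ^^^ t) 0
          * (f (a + (2 ^ r * p + idxNum r i')) (b + (2 ^ r * q + idxNum r k')) / (2:ℝ) ^ m)
          * (g (b + (2 ^ r * q + idxNum r k')) (c + (2 ^ r * t + idxNum r l')) / (2:ℝ) ^ m)
          * (h (c + (2 ^ r * t + idxNum r l')) (a + (2 ^ r * p + idxNum r i')) / (2:ℝ) ^ m) := by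
    intro p q t hp hq ht
    unfold summand
    rw [xor_split hi hk, xor_split (Nat.xor_lt_two_pow hi hk) hl, Nat.sub_zero,
      show r + 1 - 1 - 0 = r by omega, bsgn_top (Nat.xor_lt_two_pow (Nat.xor_lt_two_pow hi hk) hl),
      if_pos]
    rw [Nat.shiftRight_eq_div_pow, Nat.div_eq_of_lt]
    have h2 : p ^^^ q ^^^ t < 2 ^ 1 := Nat.xor_lt_two_pow (Nat.xor_lt_two_pow hp hq) ht
    have h3 : idxNum r i' ^^^ idxNum r k' ^^^ idxNum r l' < 2 ^ r :=
      Nat.xor_lt_two_pow (Nat.xor_lt_two_pow hi hk) hl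
    rw [pow_succ]
    rw [pow_one] at h2
    calc 2 ^ r * (p ^^^ q ^^^ t) + (idxNum r i' ^^^ idxNum r k' ^^^ idxNum r l')
        < 2 ^ r * (p ^^^ q ^^^ t) + 2 ^ r := Nat.add_lt_add_left h3 _
      _ = 2 ^ r * ((p ^^^ q ^^^ t) + 1) := by ring
      _ ≤ 2 ^ r * 2 := Nat.mul_le_mul_left _ h2
  have e000 := ev 0 0 0 (by norm_num) (by norm_num) (by norm_num)
  have e001 := ev 0 0 1 (by norm_num) (by norm_num) (by norm_num)
  have e010 := ev 0 1 0 (by norm_num) (by norm_num) (by norm_num)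
  have e011 := ev 0 1 1 (by norm_num) (by norm_num) (by norm_num)
  have e100 := ev 1 0 0 (by norm_num) (by norm_num) (by norm_num)
  have e101 := ev 1 0 1 (by norm_num) (by norm_num) (by norm_num)
  have e110 := ev 1 1 0 (by norm_num) (by norm_num) (by norm_num)
  have e111 := ev 1 1 1 (by norm_num) (by norm_num) (by norm_num)
  have s0 : bsgn 0 0 = 1 := by simp [bsgn]
  have s1 : bsgn 1 0 = -1 := by simp [bsgn]
  simp only [Nat.xor_self, Nat.zero_xor, Nat.xor_zero, mul_zero, mul_one, zero_add, s0, s1]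
    at e000 e001 e010 e011 e100 e101 e110 e111
  rw [e000, e001, e010, e011, e100, e101, e110, e111]
  ring

theorem subForm_eq (m : ℕ) (f g h : ℕ → ℕ → ℝ) (r : ℕ) : ∀ (e : ℕ → ℝ) (a b c : ℕ),
    subForm m f g h r e a b c = ∑ j ∈ Finset.range r, e j * subScale m f g h r j a b c := by
  induction r with
  | zero => intro e a b c; simp [subForm]
  | succ r ih =>
    intro e a b c
    rw [subForm, Finset.sum_range_succ', ih, ih, ih, ih, subScale_zero, add_comm]
    congr 1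
    rw [← Finset.sum_add_distrib, ← Finset.sum_add_distrib, ← Finset.sum_add_distrib,
      Finset.mul_sum]
    refine Finset.sum_congr rfl fun j hj => ?_
    rw [subScale_succ m f g h (Finset.mem_range.mp hj)]
    ring

theorem subScale_root (m j : ℕ) (f g h : ℕ → ℕ → ℝ) :
    subScale m f g h m j 0 0 0 = dscale m j f g h := by
  unfold subScale dscale summand
  rw [div_eq_mul_inv, mul_assoc, Finset.mul_sum (a := (((2:ℝ) ^ m) ^ 3)⁻¹)]
  congr 1
  refine Finset.sum_congr rfl fun i _ => ?_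
  rw [Finset.mul_sum]
  refine Finset.sum_congr rfl fun k _ => ?_
  rw [Finset.mul_sum]
  refine Finset.sum_congr rfl fun l _ => ?_
  simp only [zero_add]
  split_ifs
  · field_simp
  · ring

/-- The uniform bound for the finite model. -/
theorem discrete_bound : ∃ C : ℝ, ∀ (m : ℕ) (eps : ℕ → ℝ), (∀ j, |eps j| ≤ 1) →
    ∀ f g h : ℕ → ℕ → ℝ, |dform m eps f g h| ≤ C * dnorm m f g h := by
  refine ⟨12 * leafConst, fun m eps he f g h => ?_⟩
  have e : dform m eps f g h = subForm m f g h m eps 0 0 0 := by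
    rw [subForm_eq, dform]
    exact Finset.sum_congr rfl fun j _ => by rw [subScale_root]
  rw [e]
  refine (subForm_le m f g h m eps he 0 0 0).trans ?_
  have h1 := leafSum_le m f g h m 0 0 0
  have h2 : 0 ≤ nodePsi m f g h m 0 0 0 := psi_nonneg _ _ _
  have e2 : (2:ℝ) ^ m * (cube m f m 0 0 + cube m g m 0 0 + cube m h m 0 0)
      = dnorm m f g h := by
    simp only [cube, dnorm, zero_add, ← Finset.sum_add_distrib, Finset.sum_div, Finset.mul_sum]
    refine Finset.sum_congr rfl fun i _ => Finset.sum_congr rfl fun k _ => ?_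
    have hp : (0:ℝ) < 2 ^ m := by positivity
    simp only [abs_div, abs_of_pos hp]
    field_simp
  rw [← e2]
  nlinarith

end P075
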